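import Crest.Agent.R259.Defs

/-! Row 259: coefficient arrays of theta series. -/

set_option autoImplicit false

noncomputable section

namespace Crest.Agent.R259

theorem co_ext {θ θ' : L} (h : ∀ u, co θ u = co θ' u) : θ = θ' := by
  ext γ N
  exact h (γ, N)

@[simp] theorem co_zero (u : ℤ × ℤ) : co 0 u = 0 := by
  simp [co]

theorem co_add (θ θ' : L) (u : ℤ × ℤ) : co (θ + θ') u = co θ u + co θ' u := by
  simp [co]

theorem co_sum {α : Type*} (s : Finset α) (θ : α → L) (u : ℤ × ℤ) :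
    co (∑ a ∈ s, θ a) u = ∑ a ∈ s, co (θ a) u := by
  classical
  induction s using Finset.induction_on with
  | empty => simp
  | insert a s ha ih => rw [Finset.sum_insert ha, Finset.sum_insert ha, co_add, ih]

private theorem Arr_hs {A : Type} [CommRing A] (x y : HahnSeries ℤ A) (γ : ℤ) : ∃ s : Finset ℤ,
    (x * y).coeff γ = ∑ g ∈ s, x.coeff g * y.coeff (γ - g) ∧
      ∀ g, x.coeff g ≠ 0 → y.coeff (γ - g) ≠ 0 → g ∈ s := by
  refine ⟨(Finset.antidiagonal x.isPWO_support y.isPWO_support γ).image Prod.fst, ?_,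
    fun g h1 h2 => Finset.mem_image.2 ⟨(g, γ - g), ?_, rfl⟩⟩
  · rw [HahnSeries.coeff_mul, Finset.sum_image]
    · refine Finset.sum_congr rfl fun ij hij => ?_
      rw [← (Finset.mem_antidiagonal.1 hij).2.2, add_sub_cancel_left]
    · intro a ha b hb hab
      have h1 := (Finset.mem_antidiagonal.1 ha).2.2
      have h2 := (Finset.mem_antidiagonal.1 hb).2.2
      exact Prod.ext hab (by omega)
  · exact Finset.mem_antidiagonal.2 ⟨h1, h2, by simp⟩

theorem co_ι (c : K) (u : ℤ × ℤ) : co (ι c) u = if u.2 = 0 then c.coeff u.1 else 0 := LaurentPolynomial.C_apply _ _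

/-- convolution formula -/
theorem co_mul (θ θ' : L) (w : ℤ × ℤ) :
    co (θ * θ') w = ∑ᶠ u : ℤ × ℤ, co θ u * co θ' (w - u) := by
  obtain ⟨s, h1, h2⟩ := Arr_hs θ θ' w.1
  rw [finsum_eq_sum_of_support_subset (s := s ×ˢ s.biUnion fun g => (θ.coeff g).coeff.support),
    Finset.sum_product]
  · unfold co
    rw [h1, AddMonoidAlgebra.coeff_sum, Finsupp.finsetSum_apply]
    refine Finset.sum_congr rfl fun g hg => ?_
    rw [AddMonoidAlgebra.coeff_mul_apply_left, Finsupp.sum_of_support_subset _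
      (Finset.subset_biUnion_of_mem (fun g => (θ.coeff g).coeff.support) hg) _ (by simp)]
    refine Finset.sum_congr rfl fun n _ => ?_
    rw [neg_add_eq_sub]
    rfl
  · intro u hu
    have a1 : co θ u ≠ 0 := left_ne_zero_of_mul hu
    have a2 : co θ' (w - u) ≠ 0 := right_ne_zero_of_mul hu
    have hs : u.1 ∈ s := h2 u.1 (fun h => a1 (by simp [co, h]))
      (fun h => a2 (by unfold co; rw [Prod.fst_sub, h]; rfl))
    exact Finset.mem_coe.2 (Finset.mem_product.2
      ⟨hs, Finset.mem_biUnion.2 ⟨u.1, hs, Finsupp.mem_support_iff.2 a1⟩⟩)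

/-- one-dimensional convolution formula -/
theorem coeff_mul_finsum (c c' : K) (γ : ℤ) :
    (c * c').coeff γ = ∑ᶠ g : ℤ, c.coeff g * c'.coeff (γ - g) := by
  obtain ⟨s, h1, h2⟩ := Arr_hs c c' γ
  rw [h1, finsum_eq_sum_of_support_subset]
  exact fun g hg => h2 g (left_ne_zero_of_mul hg) (right_ne_zero_of_mul hg)

theorem co_ι_mul (c : K) (θ : L) (γ N : ℤ) :
    co (ι c * θ) (γ, N) = ∑ᶠ g : ℤ, c.coeff g * co θ (γ - g, N) := by
  obtain ⟨s, h1, h2⟩ := Arr_hs (ι c) θ γ
  rw [finsum_eq_sum_of_support_subset (s := s)]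
  · unfold co
    rw [h1, AddMonoidAlgebra.coeff_sum, Finsupp.finsetSum_apply]
    refine Finset.sum_congr rfl fun g _ => ?_
    exact AddMonoidAlgebra.coeff_single_zero_mul _ _ _
  · intro g hg
    have a1 : c.coeff g ≠ 0 := left_ne_zero_of_mul hg
    have a2 : co θ (γ - g, N) ≠ 0 := right_ne_zero_of_mul hg
    refine h2 g (fun h => a1 ?_) (fun h => a2 (by simp [co, h]))
    have h3 := co_ι c (g, 0)
    unfold co at h3
    rw [h, if_pos rfl] at h3
    exact h3.symm

end Crest.Agent.R259
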