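import Crest.Agent.R259.Theta

/-! Row 259: the cubic relation between the three theta series. -/

set_option autoImplicit false

noncomputable section

namespace Crest.Agent.R259

/-- the coefficient of `x ^ N` -/
private def kap (N : ℤ) (θ : L) : K :=
  θ.map (⟨fun a : R => a.coeff N, by simp⟩ : ZeroHom R ℂ)

private theorem kap_coeff (N : ℤ) (θ : L) (γ : ℤ) : (kap N θ).coeff γ = co θ (γ, N) := rfl

private theorem kap_ι_mul (N : ℤ) (c : K) (θ : L) : kap N (ι c * θ) = c * kap N θ := by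
  ext γ
  rw [kap_coeff, co_ι_mul, coeff_mul_finsum]
  rfl

private theorem kap_sum {α : Type*} (N : ℤ) (s : Finset α) (θ : α → L) :
    kap N (∑ a ∈ s, θ a) = ∑ a ∈ s, kap N (θ a) := by
  ext γ
  rw [kap_coeff, co_sum, HahnSeries.coeff_sum]
  rfl

private theorem th_zero {p q : ℤ} {θ : L} (h : Th p q 3 θ)
    (h0 : ∀ N : ℤ, 0 ≤ N → N < 9 → ∀ γ, co θ (γ, N) = 0) : θ = 0 := by
  have key : ∀ k : ℤ, ∀ N : ℤ, 0 ≤ N → N < 9 → ∀ γ, co θ (γ, N + 9 * k) = 0 := by
    intro k N h1 h2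
    induction k using Int.induction_on with
    | zero => simpa using h0 N h1 h2
    | succ k ih =>
      intro γ
      have := h (γ - (6 * q * (N + 9 * k) + 6 * p * (3 : ℕ))) (N + 9 * k)
      rw [ih] at this
      rw [← this]
      congr 2 <;> push_cast <;> ring
    | pred k ih =>
      intro γ
      rw [← h γ, ← ih (γ + 6 * q * (N + 9 * (-k - 1)) + 6 * p * (3 : ℕ))]
      congr 2
      push_cast
      ring
  refine co_ext fun u => ?_
  have := key (u.2 / 9) (u.2 % 9) (by omega) (by omega) u.1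
  rwa [Int.emod_add_mul_ediv] at this

theorem exists_cubic {p q : ℤ} {Θ : ℤ → L} (hΘ : IsTheta p q Θ) :
    ∃ G : MvPolynomial (Fin 3) K, G.IsHomogeneous 3 ∧ G ≠ 0 ∧ ev Θ G = 0 := by
  classical
  obtain ⟨A, hA⟩ : ∃ A : Finset (Fin 3 →₀ ℕ), A = (Finset.univ : Finset (Fin 3)).finsuppAntidiag 3 :=
    ⟨_, rfl⟩
  have hcard : A.card = 10 := by
    rw [hA, Finset.card_finsuppAntidiag_nat_eq_choose]
    rfl
  have hdeg : ∀ a : A, (a : Fin 3 →₀ ℕ).degree = 3 := by
    intro a
    have := a.2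
    simp only [hA, Finset.mem_finsuppAntidiag] at this
    rw [Finsupp.degree_eq_sum]
    exact this.1
  have hdep : ¬ LinearIndependent K (fun (a : A) (N : Fin 9) =>
      kap ((N : ℕ) : ℤ) (ev Θ (MvPolynomial.monomial (a : Fin 3 →₀ ℕ) 1))) := by
    intro hli
    have := hli.fintype_card_le_finrank
    simp [hcard] at this
  obtain ⟨g, hg, a₀, ha₀⟩ := Fintype.not_linearIndependent_iff.1 hdep
  have hhom : (∑ a : A, MvPolynomial.monomial (a : Fin 3 →₀ ℕ) (g a)).IsHomogeneous 3 :=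
    MvPolynomial.IsHomogeneous.sum _ _ _ fun a _ => MvPolynomial.isHomogeneous_monomial _ (hdeg a)
  refine ⟨_, hhom, fun h0 => ha₀ ?_, th_zero (Th_ev hΘ hhom) fun N h1 h2 γ => ?_⟩
  · have := congrArg (MvPolynomial.coeff (a₀ : Fin 3 →₀ ℕ)) h0
    rw [MvPolynomial.coeff_sum, Finset.sum_eq_single a₀] at this
    · simpa using this
    · intro b _ hb
      rw [MvPolynomial.coeff_monomial, if_neg fun e => hb (Subtype.ext e)]
    · simp
  · have e := congrFun hg ⟨N.toNat, by omega⟩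
    simp only [Finset.sum_apply, Pi.smul_apply, smul_eq_mul, Pi.zero_apply,
      Int.toNat_of_nonneg h1] at e
    have e2 : ∀ a : A, ev Θ (MvPolynomial.monomial (a : Fin 3 →₀ ℕ) (g a))
        = ι (g a) * ev Θ (MvPolynomial.monomial (a : Fin 3 →₀ ℕ) 1) := by
      intro a
      simp [ev]
    rw [← kap_coeff, map_sum, kap_sum]
    simp only [e2, kap_ι_mul]
    rw [e]
    rfl

end Crest.Agent.R259
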