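import Mathlib
import Crest.Prelude.Def_VanishingOrder

/-! Row 259 (Nagata): definitions.  Theta series on a Tate curve as Laurent series in `t`
with Laurent polynomial coefficients in `x`. -/

set_option autoImplicit false

noncomputable section

namespace Crest.Agent.R259

/-- `ℂ((t))` -/
abbrev K : Type := HahnSeries ℤ ℂ
/-- `ℂ[x, x⁻¹]` -/
abbrev R : Type := LaurentPolynomial ℂ
/-- `ℂ[x, x⁻¹]((t))` -/
abbrev L : Type := HahnSeries ℤ R
/-- `ℂ[[s]]` -/
abbrev S : Type := PowerSeries ℂ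
/-- `ℂ[[s]]((t))` -/
abbrev LS : Type := HahnSeries ℤ S

/-- coefficientwise ring homomorphism of Laurent series -/
def hmap {A B : Type*} [CommRing A] [CommRing B] (f : A →+* B) :
    HahnSeries ℤ A →+* HahnSeries ℤ B where
  toFun x := x.map f
  map_one' := HahnSeries.map_one f.toMonoidWithZeroHom
  map_mul' _ _ := HahnSeries.map_mul (f : A →ₙ+* B)
  map_zero' := HahnSeries.map_zero (f : ZeroHom A B)
  map_add' _ _ := HahnSeries.map_add (f : A →+ B)

@[simp] theorem hmap_coeff {A B : Type*} [CommRing A] [CommRing B] (f : A →+* B)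
    (x : HahnSeries ℤ A) (g : ℤ) : (hmap f x).coeff g = f (x.coeff g) := rfl

/-- coefficient of `t ^ u.1 * x ^ u.2` -/
def co (θ : L) (u : ℤ × ℤ) : ℂ := (θ.coeff u.1).coeff u.2

/-- constants `ℂ((t)) → ℂ[x, x⁻¹]((t))` -/
def ι : K →+* L := hmap LaurentPolynomial.C

/-- the exponent of `t` in front of `x ^ N` in the basic theta series -/
def e (p q N : ℤ) : ℤ := q * N ^ 2 + (2 * p - 3 * q) * N

/-- `Θ i = ∑_{N ≡ i mod 3} t ^ e(N) x ^ N` -/
def IsTheta (p q : ℤ) (Θ : ℤ → L) : Prop :=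
  ∀ i γ N : ℤ, co (Θ i) (γ, N) = if (3 : ℤ) ∣ N - i ∧ γ = e p q N then 1 else 0

/-- the functional equation of a theta series of degree `3 n` -/
def Th (p q : ℤ) (n : ℕ) (θ : L) : Prop :=
  ∀ γ N : ℤ, co θ (γ + 6 * q * N + 6 * p * n, N + 3 * n) = co θ (γ, N)

/-- evaluation of ternary forms at the three basic theta series -/
def ev (Θ : ℤ → L) : MvPolynomial (Fin 3) K →+* L :=
  MvPolynomial.eval₂Hom ι (fun i => Θ ((i : ℕ) : ℤ))

/-- the numerical condition on the shear `b = p / q` -/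
def Arith (r d M : ℕ) (p q : ℤ) : Prop :=
  ∀ (k : ℕ) (lo hi : ℤ), p * k ≤ q * d → -(p * (d - 3 * k)) ≤ q * lo →
    q ^ 2 * hi ≤ -((p - 3 * q) * p * k) → hi - lo + r * k < M

theorem isUnit_C_add_X (x : ℂˣ) : IsUnit (PowerSeries.C (x : ℂ) + PowerSeries.X : S) := by
  rw [PowerSeries.isUnit_iff_constantCoeff]
  simp

/-- expansion of a Laurent polynomial at the point `x`: substitute `x + s` -/
def evS (x : ℂˣ) : R →+* S :=
  LaurentPolynomial.eval₂ (PowerSeries.C : ℂ →+* S) (isUnit_C_add_X x).unit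

end Crest.Agent.R259
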