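import Crest.Agent.R259.Defs

/-! Row 259: the kernel of the evaluation is generated by the cubic (dimension count). -/

set_option autoImplicit false

noncomputable section

namespace Crest.Agent.R259

open MvPolynomial

/-- the exponent of `X₀ X₁ X₂` -/
private def s111 : Fin 3 →₀ ℕ := Finsupp.equivFunOnFinite.symm fun _ => 1

private theorem s111_degree : s111.degree = 3 := by
  rw [Finsupp.degree_eq_sum]
  simp [s111]

private theorem s111_le {α : Fin 3 →₀ ℕ} (h : ∀ i, α i ≠ 0) : s111 ≤ α := fun i =>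
  Nat.one_le_iff_ne_zero.2 (h i)

/-- division by `X₀ X₁ X₂` -/
private def dv (F : Type*) [Field F] : MvPolynomial (Fin 3) F →ₗ[F] MvPolynomial (Fin 3) F where
  toFun p := divMonomial p s111
  map_add' p q := add_divMonomial p q _
  map_smul' c p := by ext α; simp

private theorem coeff_dv {F : Type*} [Field F] (p : MvPolynomial (Fin 3) F) (α : Fin 3 →₀ ℕ) :
    coeff α (dv F p) = coeff (s111 + α) p := coeff_divMonomial _ _ _

private theorem dv_hom {F : Type*} [Field F] {n : ℕ} {p : MvPolynomial (Fin 3) F}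
    (hp : p.IsHomogeneous (n + 3)) : (dv F p).IsHomogeneous n := by
  intro α hα
  rw [coeff_dv] at hα
  by_contra h
  refine hα (hp.coeff_eq_zero fun h' => h ?_)
  rw [map_add, s111_degree] at h'
  have h2 : α.degree = n := by omega
  rwa [Finsupp.degree_eq_weight_one] at h2

private theorem dv_zero {F : Type*} [Field F] {p : MvPolynomial (Fin 3) F} (hp : dv F p = 0) :
    ∀ α ∈ p.support, ∃ i, α i = 0 := by
  intro α hα
  by_contra h
  push Not at h
  obtain ⟨β, rfl⟩ := exists_add_of_le (s111_le h)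
  exact mem_support_iff.1 hα (by rw [← coeff_dv, hp, coeff_zero])

theorem ker_cubic {F B : Type*} [Field F] [CommRing B] (E : MvPolynomial (Fin 3) F →+* B)
    (hind : ∀ (n : ℕ) (h : MvPolynomial (Fin 3) F), h.IsHomogeneous n →
      (∀ α ∈ h.support, ∃ i, α i = 0) → E h = 0 → h = 0)
    {G : MvPolynomial (Fin 3) F} (hG : G.IsHomogeneous 3) (hG0 : G ≠ 0) (hE : E G = 0)
    {n : ℕ} {f : MvPolynomial (Fin 3) F} (hf : f.IsHomogeneous (n + 3)) (hf0 : E f = 0) :
    ∃ h : MvPolynomial (Fin 3) F, h.IsHomogeneous n ∧ f = G * h := by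
  have : Module.Finite F (homogeneousSubmodule (Fin 3) F n) :=
    Module.Finite.iff_fg.2 (homogeneousSubmodule_fg _ _ n)
  have hGh : ∀ h : MvPolynomial (Fin 3) F, h.IsHomogeneous n → (G * h).IsHomogeneous (n + 3) :=
    fun h hh => add_comm 3 n ▸ hG.mul hh
  let T : homogeneousSubmodule (Fin 3) F n →ₗ[F] homogeneousSubmodule (Fin 3) F n :=
    ((dv F).comp (LinearMap.mulLeft F G)).restrict fun h hh => dv_hom (hGh h hh)
  have hT : Function.Injective T := by
    rw [injective_iff_map_eq_zero]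
    intro h hh
    have h1 : dv F (G * h) = 0 := congrArg Subtype.val hh
    have h2 := hind _ _ (hGh h h.2) (dv_zero h1) (by rw [map_mul, hE, zero_mul])
    exact Subtype.ext ((mul_eq_zero.1 h2).resolve_left hG0)
  obtain ⟨h, hh⟩ := LinearMap.injective_iff_surjective.1 hT ⟨dv F f, dv_hom hf⟩
  have h1 : dv F (G * h) = dv F f := congrArg Subtype.val hh
  refine ⟨h, h.2, sub_eq_zero.1 (hind _ _ (hf.sub (hGh h h.2)) (dv_zero ?_) ?_)⟩
  · rw [map_sub, h1, sub_self]
  · rw [map_sub, map_mul, hE, hf0, zero_mul, sub_zero]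

theorem factor_cubic {F B : Type*} [Field F] [CommRing B] (E : MvPolynomial (Fin 3) F →+* B)
    (hind : ∀ (n : ℕ) (h : MvPolynomial (Fin 3) F), h.IsHomogeneous n →
      (∀ α ∈ h.support, ∃ i, α i = 0) → E h = 0 → h = 0)
    {G : MvPolynomial (Fin 3) F} (hG : G.IsHomogeneous 3) (hG0 : G ≠ 0) (hE : E G = 0)
    {n : ℕ} {f : MvPolynomial (Fin 3) F} (hf : f.IsHomogeneous n) (hf0 : f ≠ 0) :
    ∃ (j : ℕ) (h : MvPolynomial (Fin 3) F), 3 * j ≤ n ∧ h.IsHomogeneous (n - 3 * j) ∧
      f = G ^ j * h ∧ E h ≠ 0 := by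
  induction n using Nat.strong_induction_on generalizing f with
  | _ n ih =>
    by_cases hEf : E f = 0
    · rcases lt_or_ge n 3 with hn | hn
      · refine absurd (hind n f hf (fun α hα => ?_) hEf) hf0
        by_contra h
        push Not at h
        obtain ⟨β, rfl⟩ := exists_add_of_le (s111_le h)
        refine mem_support_iff.1 hα (hf.coeff_eq_zero ?_)
        rw [map_add, s111_degree]
        omega
      · obtain ⟨m, rfl⟩ : ∃ m, n = m + 3 := ⟨n - 3, by omega⟩
        obtain ⟨h, hh, rfl⟩ := ker_cubic E hind hG hG0 hE hf hEf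
        obtain ⟨j, g, h1, h2, rfl, h4⟩ := ih m (by omega) hh (right_ne_zero_of_mul hf0)
        refine ⟨j + 1, g, by omega, ?_, by ring, h4⟩
        rwa [show m + 3 - 3 * (j + 1) = m - 3 * j by omega]
    · exact ⟨0, f, by omega, hf, by rw [pow_zero, one_mul], hEf⟩

theorem exists_pderiv {F B : Type*} [Field F] [CharZero F] [CommRing B]
    (E : MvPolynomial (Fin 3) F →+* B)
    (hind : ∀ (n : ℕ) (h : MvPolynomial (Fin 3) F), h.IsHomogeneous n →
      (∀ α ∈ h.support, ∃ i, α i = 0) → E h = 0 → h = 0)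
    {G : MvPolynomial (Fin 3) F} (hG : G.IsHomogeneous 3) (hG0 : G ≠ 0) (hE : E G = 0) :
    ∃ ν : Fin 3, ν ≠ 0 ∧ E (pderiv ν G) ≠ 0 := by
  by_contra h
  push Not at h
  have h1 : pderiv 1 G = 0 := by
    refine hind _ _ hG.pderiv (fun α hα => ?_) (h 1 (by decide))
    by_contra h'
    push Not at h'
    obtain ⟨β, rfl⟩ := exists_add_of_le (s111_le h')
    refine mem_support_iff.1 hα ((hG.pderiv (i := 1)).coeff_eq_zero ?_)
    rw [map_add, s111_degree]
    omega
  refine hG0 (hind 3 G hG (fun α hα => ⟨1, ?_⟩) hE)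
  by_contra h2
  obtain ⟨β, rfl⟩ := exists_add_of_le
    (Finsupp.single_le_iff.2 (Nat.one_le_iff_ne_zero.2 h2) : Finsupp.single 1 1 ≤ α)
  have h3 := coeff_pderiv (i := 1) G β
  rw [h1, coeff_zero, add_comm β] at h3
  exact mul_ne_zero (mem_support_iff.1 hα) (Nat.cast_add_one_ne_zero _) h3.symm

end Crest.Agent.R259
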