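import Crest.Agent.R259.Defs

/-! Row 259: from one special configuration to very general points. -/

set_option autoImplicit false

noncomputable section

namespace Crest.Agent.R259

open Crest.AlgGeometry

theorem exists_minor {D : Type*} [CommRing D] [IsDomain D] {ρ κ : Type*} [Fintype κ]
    [DecidableEq κ] (M : Matrix ρ κ D)
    (hM : ∀ v : κ → D, (∀ a, ∑ k, M a k * v k = 0) → v = 0) :
    ∃ σ : κ → ρ, (M.submatrix σ id).det ≠ 0 := by
  classical
  let F := FractionRing D
  let φ : D →+* F := algebraMap D F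
  have hφ : Function.Injective φ := IsFractionRing.injective D F
  let w : ρ → (κ → F) := fun a k => φ (M a k)
  have hspan : Submodule.span F (Set.range w) = ⊤ := by
    by_contra hne
    obtain ⟨l, hl0, hl⟩ := Submodule.exists_le_ker_of_lt_top _ (lt_top_iff_ne_top.2 hne)
    let v' : κ → F := fun k => l (fun j => if k = j then 1 else 0)
    have hlv : ∀ x : κ → F, l x = ∑ k, x k * v' k := by
      intro x
      rw [LinearMap.pi_apply_eq_sum_univ l x]
      simp only [v', smul_eq_mul]
    obtain ⟨b, hb⟩ := IsLocalization.exist_integer_multiples_of_finite (nonZeroDivisors D) v'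
    choose v hv using hb
    have hv0 : v = 0 := by
      apply hM
      intro a
      apply hφ
      rw [map_sum, map_zero]
      have h1 : l (w a) = 0 := hl (Submodule.subset_span ⟨a, rfl⟩)
      rw [hlv] at h1
      have h2 : ∀ k, φ (M a k * v k) = φ (b : D) * (w a k * v' k) := by
        intro k
        rw [map_mul]
        have := hv k
        simp only [Algebra.smul_def] at this
        change φ (v k) = φ (b : D) * v' k at this
        rw [this]
        simp only [w]
        ring
      simp only [h2]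
      rw [← Finset.mul_sum, h1, mul_zero]
    apply hl0
    have hb0 : φ (b : D) ≠ 0 := by
      intro h
      have : (b : D) = 0 := hφ (by rw [h, map_zero])
      exact nonZeroDivisors.ne_zero b.2 this
    have hv' : ∀ k, v' k = 0 := by
      intro k
      have := hv k
      simp only [Algebra.smul_def] at this
      change φ (v k) = φ (b : D) * v' k at this
      rw [hv0] at this
      simp only [Pi.zero_apply, map_zero] at this
      exact (mul_eq_zero.1 this.symm).resolve_left hb0
    ext1 k
    ext
    simp [hlv, hv']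
  obtain ⟨τ, a, _, hsp, hli⟩ := exists_linearIndependent' F w
  rw [hspan] at hsp
  let B : Module.Basis τ F (κ → F) := Module.Basis.mk hli (by rw [hsp])
  have e : κ ≃ τ := (Pi.basisFun F κ).indexEquiv B
  refine ⟨a ∘ e, ?_⟩
  have hli' : LinearIndependent F (w ∘ a ∘ e) := by
    have := hli.comp e e.injective
    exact this
  have hu : IsUnit ((M.submatrix (a ∘ e) id).map φ) := by
    rw [← Matrix.linearIndependent_rows_iff_isUnit]
    exact hli'
  rw [Matrix.isUnit_iff_isUnit_det] at hu
  intro h0
  have : ((M.submatrix (a ∘ e) id).map φ).det = 0 := by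
    have h := RingHom.map_det φ (M.submatrix (a ∘ e) id)
    rw [h0, map_zero] at h
    exact h.symm
  exact hu.ne_zero this

open MvPolynomial

/-- the entries of the matrix of conditions -/
private def ent {E : Type*} [CommRing E] (a : Fin 2 → E) (β α : Fin 2 →₀ ℕ) : E :=
  coeff β (aeval (fun j => X j + C (a j)) (monomial α (1 : E)) : MvPolynomial (Fin 2) E)

private theorem ent_map {E E' : Type*} [CommRing E] [CommRing E'] (ψ : E →+* E') (a : Fin 2 → E)
    (β α : Fin 2 →₀ ℕ) : ψ (ent a β α) = ent (fun j => ψ (a j)) β α := by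
  unfold ent
  rw [← coeff_map, aeval_monomial, aeval_monomial]
  simp [Finsupp.prod, map_prod]

private theorem van_iff {E : Type*} [CommRing E] {s : Finset (Fin 2 →₀ ℕ)} (v : s → E) (a : Fin 2 → E)
    (m : ℕ) : VanishesToOrder (∑ α : s, monomial α.1 (v α)) a m ↔
      ∀ β : Fin 2 →₀ ℕ, β.degree < m → ∑ α : s, ent a β α.1 * v α = 0 := by
  have e : ∀ β, coeff β (aeval (fun j => X j + C (a j)) (∑ α : s, monomial α.1 (v α)) :
      MvPolynomial (Fin 2) E) = ∑ α : s, ent a β α.1 * v α := by
    intro β
    rw [map_sum, coeff_sum]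
    refine Finset.sum_congr rfl fun α _ => ?_
    rw [ent, mul_comm, ← coeff_C_mul, ← mul_one (v α), ← C_mul_monomial, map_mul, aeval_C, mul_one,
      algebraMap_eq]
  constructor
  · intro h β hβ
    have := congrArg (coeff β) (h _ hβ)
    rwa [coeff_homogeneousComponent, if_pos rfl, e] at this
  · intro h k hk
    ext β
    rw [coeff_homogeneousComponent, coeff_zero]
    split_ifs with hβ
    · rw [e, h β (hβ ▸ hk)]
    · rfl

private theorem key_iff {E : Type*} [CommRing E] {r : ℕ} (m : Fin r → ℕ) {s : Finset (Fin 2 →₀ ℕ)}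
    (ψ : MvPolynomial (Fin r × Fin 2) ℂ →+* E) (v : s → E) :
    (∀ i, VanishesToOrder (∑ α : s, monomial α.1 (v α)) (fun j => ψ (X (i, j))) (m i)) ↔
      ∀ a : {a : Fin r × (Fin 2 →₀ ℕ) // a.2.degree < m a.1},
        ∑ α : s, ψ (ent (fun j => X (a.1.1, j)) a.1.2 α.1) * v α = 0 := by
  simp only [van_iff, ent_map]
  exact ⟨fun h a => h a.1.1 a.1.2 a.2, fun h i β hβ => h ⟨(i, β), hβ⟩⟩

theorem generic {D : Type*} [CommRing D] [IsDomain D] (φ : ℂ →+* D) {r : ℕ} (d : ℕ)
    (m : Fin r → ℕ) (P : Fin r → Fin 2 → D)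
    (hP : ∀ f : MvPolynomial (Fin 2) D, f.totalDegree ≤ d →
      (∀ i, VanishesToOrder f (P i) (m i)) → f = 0) :
    ∃ g : MvPolynomial (Fin r × Fin 2) ℂ, g ≠ 0 ∧ ∀ p : Fin r → Fin 2 → ℂ,
      MvPolynomial.eval (fun ij : Fin r × Fin 2 => p ij.1 ij.2) g ≠ 0 →
      ∀ f : MvPolynomial (Fin 2) ℂ, f.totalDegree ≤ d →
        (∀ i, VanishesToOrder f (p i) (m i)) → f = 0 := by
  classical
  let s : Finset (Fin 2 →₀ ℕ) := (Finsupp.finite_of_degree_le d).toFinset
  have hs : ∀ α, α ∈ s ↔ α.degree ≤ d := fun α => Set.Finite.mem_toFinset _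
  let M : Matrix {a : Fin r × (Fin 2 →₀ ℕ) // a.2.degree < m a.1} s (MvPolynomial (Fin r × Fin 2) ℂ) :=
    fun a α => ent (fun j => X (a.1.1, j)) a.1.2 α.1
  let ψ : MvPolynomial (Fin r × Fin 2) ℂ →+* D := eval₂Hom φ fun ij => P ij.1 ij.2
  obtain ⟨σ, hσ⟩ := exists_minor (M.map ψ) fun v hv => by
    have h1 := (key_iff m ψ v).2 hv
    simp only [ψ, eval₂Hom_X'] at h1
    have h2 := hP _ (totalDegree_finsetSum_le fun α _ =>
      (totalDegree_monomial_le _ _).trans ((hs _).1 α.2)) h1
    funext α
    have h3 := congrArg (coeff α.1) h2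
    rw [coeff_sum, Finset.sum_eq_single α] at h3
    · simpa using h3
    · intro β _ hβ
      rw [coeff_monomial, if_neg fun h => hβ (Subtype.ext h)]
    · simp
  refine ⟨(M.submatrix σ id).det, fun h => hσ ?_, fun p hp f hf hv => ?_⟩
  · rw [Matrix.submatrix_map, ← RingHom.mapMatrix_apply, ← RingHom.map_det, h, map_zero]
  · have e : f = ∑ α : s, monomial α.1 (coeff α.1 f) := by
      rw [Finset.sum_coe_sort s fun α => monomial α (coeff α f)]
      refine f.as_sum.trans (Finset.sum_subset (fun α hα => (hs _).2 ((le_totalDegree hα).trans hf))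
        fun α _ hα => ?_)
      rw [notMem_support_iff.1 hα, monomial_zero]
    have h1 := (key_iff m (eval fun ij : Fin r × Fin 2 => p ij.1 ij.2) fun α => coeff α.1 f).1 (by
      simp only [eval_X]
      rw [← e]
      exact hv)
    rw [RingHom.map_det] at hp
    have h2 := Matrix.eq_zero_of_mulVec_eq_zero hp (v := fun α => coeff α.1 f)
      (funext fun k => h1 (σ k))
    rw [e]
    exact Finset.sum_eq_zero fun α _ => by rw [congrFun h2 α, Pi.zero_apply, monomial_zero]

theorem exists_avoid {σ : Type*} [Fintype σ] (T : Set (MvPolynomial σ ℂ)) (hT : T.Countable)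
    (h0 : ∀ g ∈ T, g ≠ 0) : ∃ p : σ → ℂ, ∀ g ∈ T, MvPolynomial.eval p g ≠ 0 := by
  classical
  have hopen : ∀ g ∈ T, IsOpen {p : σ → ℂ | MvPolynomial.eval p g ≠ 0} := by
    intro g _
    exact isOpen_ne_fun (MvPolynomial.continuous_eval g) continuous_const
  have hdense : ∀ g ∈ T, Dense {p : σ → ℂ | MvPolynomial.eval p g ≠ 0} := by
    intro g hg
    rw [Metric.dense_iff]
    intro x r hr
    by_contra hne
    rw [Set.not_nonempty_iff_eq_empty] at hne
    apply h0 g hg
    apply MvPolynomial.funext_set (fun i => Metric.ball (x i) r)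
    · intro i
      exact infinite_of_mem_nhds (x i) (Metric.ball_mem_nhds _ hr)
    · intro p hp
      rw [map_zero]
      by_contra hp0
      have hpb : p ∈ Metric.ball x r := by
        rw [ball_pi x hr]
        exact hp
      have : p ∈ Metric.ball x r ∩ {p : σ → ℂ | MvPolynomial.eval p g ≠ 0} := ⟨hpb, hp0⟩
      rw [hne] at this
      exact this
  have := dense_biInter_of_isOpen hopen hT hdense
  obtain ⟨p, hp⟩ := this.nonempty
  refine ⟨p, fun g hg => ?_⟩
  simp only [Set.mem_iInter] at hp
  exact hp g hg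

end Crest.Agent.R259
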