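import Crest.Agent.R259.Arr

/-! Row 259: the monomials not divisible by `X₀ X₁ X₂` stay independent on the Tate curve. -/

set_option autoImplicit false

noncomputable section

namespace Crest.Agent.R259

/-- weight bound on the support -/
def IBd (s : ℤ) (θ : L) (c : ℤ) : Prop := ∀ u : ℤ × ℤ, co θ u ≠ 0 → c ≤ u.1 - s * u.2

/-- unique leading point -/
def ILd (s : ℤ) (θ : L) (v : ℤ × ℤ) : Prop :=
  co θ v = 1 ∧ ∀ u : ℤ × ℤ, u ≠ v → co θ u ≠ 0 → v.1 - s * v.2 < u.1 - s * u.2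

theorem ILd.bd {s : ℤ} {θ : L} {v : ℤ × ℤ} (h : ILd s θ v) : IBd s θ (v.1 - s * v.2) := by
  intro u hu
  by_cases e : u = v
  · rw [e]
  · exact (h.2 u e hu).le

theorem indep_split {θ θ' : L} {u : ℤ × ℤ} (h : co (θ * θ') u ≠ 0) :
    ∃ v, co θ v ≠ 0 ∧ co θ' (u - v) ≠ 0 := by
  by_contra hx
  refine h ?_
  rw [co_mul]
  refine finsum_eq_zero_of_forall_eq_zero fun v => ?_
  by_contra hv
  exact hx ⟨v, left_ne_zero_of_mul hv, right_ne_zero_of_mul hv⟩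

theorem IBd.mul {s : ℤ} {θ θ' : L} {c c' : ℤ} (h : IBd s θ c) (h' : IBd s θ' c') :
    IBd s (θ * θ') (c + c') := by
  intro u hu
  obtain ⟨v, h1, h2⟩ := indep_split hu
  have t1 := h v h1
  have t2 := h' _ h2
  simp only [Prod.fst_sub, Prod.snd_sub] at t2
  linarith

theorem ILd.mul {s : ℤ} {θ θ' : L} {v v' : ℤ × ℤ} (h : ILd s θ v) (h' : ILd s θ' v') :
    ILd s (θ * θ') (v + v') := by
  constructor
  · rw [co_mul, finsum_eq_single _ v, add_sub_cancel_left, h.1, h'.1, mul_one]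
    intro x hx
    by_contra hv
    have t1 := h.2 x hx (left_ne_zero_of_mul hv)
    have t2 := h'.bd _ (right_ne_zero_of_mul hv)
    simp only [Prod.fst_sub, Prod.snd_sub, Prod.fst_add, Prod.snd_add] at t2
    linarith
  · intro u hne hu
    obtain ⟨x, h1, h2⟩ := indep_split hu
    simp only [Prod.fst_add, Prod.snd_add]
    by_cases e : x = v
    · have t1 := h.bd x h1
      have t2 := h'.2 _ (fun e' => hne (by rw [← e', ← e, add_sub_cancel])) h2
      simp only [Prod.fst_sub, Prod.snd_sub] at t2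
      linarith
    · have t1 := h.2 x e h1
      have t2 := h'.bd _ h2
      simp only [Prod.fst_sub, Prod.snd_sub] at t2
      linarith

theorem ILd.one (s : ℤ) : ILd s 1 0 := by
  rw [← map_one ι]
  constructor
  · rw [co_ι]
    simp
  · intro u hne hu
    exfalso
    rw [co_ι, HahnSeries.coeff_one] at hu
    split_ifs at hu with h1 h2
    · exact hne (Prod.ext h2 h1)
    · exact hu rfl
    · exact hu rfl

theorem ILd.pow {s : ℤ} {θ : L} {v : ℤ × ℤ} (h : ILd s θ v) (n : ℕ) : ILd s (θ ^ n) (n • v) := by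
  induction n with
  | zero => simpa using ILd.one s
  | succ n ih =>
    rw [pow_succ, succ_nsmul]
    exact ih.mul h

theorem IBd.pow {s : ℤ} {θ : L} {c : ℤ} (h : IBd s θ c) (n : ℕ) : IBd s (θ ^ n) (n * c) := by
  induction n with
  | zero => simpa using (ILd.one s).bd
  | succ n ih =>
    rw [pow_succ, Nat.cast_succ, add_mul, one_mul]
    exact ih.mul h

theorem indep_theta {p q : ℤ} {Θ : ℤ → L} (hΘ : IsTheta p q Θ) (k i : ℤ) {u : ℤ × ℤ}
    (hu : co (Θ i) u ≠ 0) : (3 : ℤ) ∣ u.2 - i ∧ u.1 = e p q u.2 ∧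
      u.1 - (e p q (k + 1) - e p q k) * u.2 =
        e p q k - (e p q (k + 1) - e p q k) * k + q * ((u.2 - k) * (u.2 - k - 1)) := by
  obtain ⟨γ, N⟩ := u
  rw [hΘ] at hu
  have h : (3 : ℤ) ∣ N - i ∧ γ = e p q N := by
    by_contra hx
    exact hu (if_neg hx)
  refine ⟨h.1, h.2, ?_⟩
  simp only [h.2, e]
  ring

theorem indep_pos {x : ℤ} (h0 : x ≠ 0) (h1 : x ≠ 1) : 0 < x * (x - 1) := by
  rcases lt_or_gt_of_ne h0 with h | h
  · exact mul_pos_of_neg_of_neg h (by omega)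
  · exact mul_pos h (by omega)

theorem indep_key {p q : ℤ} (hq : 0 < q) {Θ : ℤ → L} (hΘ : IsTheta p q Θ) (k : ℤ) (a b : ℕ) :
    ∃ γ0 N0 : ℤ, co (Θ k ^ a * Θ (k + 1) ^ b) (γ0, N0) = 1 ∧ ∀ a' b' c' : ℕ, a' + b' + c' = a + b →
      ∀ γ ≤ γ0, co (Θ k ^ a' * Θ (k + 1) ^ b' * Θ (k + 2) ^ c') (γ, N0) ≠ 0 →
        a' = a ∧ b' = b ∧ c' = 0 ∧ γ = γ0 := by
  obtain ⟨s, hs⟩ : ∃ s, s = e p q (k + 1) - e p q k := ⟨_, rfl⟩
  have l0 : ILd s (Θ k) (e p q k, k) := by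
    refine ⟨by rw [hΘ]; simp, fun u hne hu => ?_⟩
    obtain ⟨t1, t2, t3⟩ := indep_theta hΘ k k hu
    have : u.2 ≠ k := fun e' => hne (Prod.ext (by rw [t2, e']) e')
    have := mul_pos hq (indep_pos (x := u.2 - k) (by omega) (by omega))
    rw [← hs] at t3
    simp only
    linarith
  have l1 : ILd s (Θ (k + 1)) (e p q (k + 1), k + 1) := by
    refine ⟨by rw [hΘ]; simp, fun u hne hu => ?_⟩
    obtain ⟨t1, t2, t3⟩ := indep_theta hΘ k (k + 1) hu
    have : u.2 ≠ k + 1 := fun e' => hne (Prod.ext (by rw [t2, e']) e')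
    have := mul_pos hq (indep_pos (x := u.2 - k) (by omega) (by omega))
    rw [← hs] at t3
    simp only
    linarith
  have l2 : IBd s (Θ (k + 2)) (e p q k - s * k + 1) := by
    intro u hu
    obtain ⟨t1, t2, t3⟩ := indep_theta hΘ k (k + 2) hu
    have := mul_pos hq (indep_pos (x := u.2 - k) (by omega) (by omega))
    rw [← hs] at t3
    linarith
  have l := fun a b : ℕ => (l0.pow a).mul (l1.pow b)
  refine ⟨_, _, (l a b).1, fun a' b' c' hn γ hγ hc => ?_⟩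
  have hn' : (a' : ℤ) + b' + c' = a + b := by exact_mod_cast hn
  have he : e p q (k + 1) = e p q k + s := by rw [hs]; ring
  have t1 := ((l a' b').bd.mul (l2.pow c')) _ hc
  simp only [Prod.smul_mk, nsmul_eq_mul, Prod.mk_add_mk, he] at t1 hγ hc ⊢
  have ha : (a : ℤ) = a' + b' + c' - b := by omega
  have hc0 : c' = 0 := by
    have : (c' : ℤ) ≤ 0 := by
      rw [ha] at t1 hγ
      linarith
    omega
  subst hc0
  rw [pow_zero, mul_one] at hc
  have t2 : (γ, (a : ℤ) * k + b * (k + 1)) = a' • (e p q k, k) + b' • (e p q (k + 1), k + 1) := by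
    by_contra hx
    have := (l a' b').2 _ hx hc
    simp only [Prod.smul_mk, nsmul_eq_mul, Prod.mk_add_mk, he] at this
    rw [ha] at this hγ
    push_cast at this hγ
    linarith
  simp only [Prod.smul_mk, nsmul_eq_mul, Prod.mk_add_mk, he, Prod.mk.injEq] at t2
  have hb : b' = b := by
    have : (b' : ℤ) = b := by
      have t3 := t2.2
      rw [ha] at t3
      push_cast at t3
      linarith
    exact_mod_cast this
  have ha' : a' = a := by omega
  subst hb ha'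
  exact ⟨rfl, rfl, rfl, t2.1⟩

theorem indep_per {p q : ℤ} {Θ : ℤ → L} (hΘ : IsTheta p q Θ) (i : ℤ) : Θ (i + 3) = Θ i := by
  refine co_ext fun ⟨γ, N⟩ => ?_
  have : (3 : ℤ) ∣ N - (i + 3) ↔ (3 : ℤ) ∣ N - i := by omega
  rw [hΘ, hΘ]
  simp only [this]

theorem indep_key3 {p q : ℤ} (hq : 0 < q) {Θ : ℤ → L} (hΘ : IsTheta p q Θ) (β : Fin 3 →₀ ℕ)
    (hβ : ∃ i, β i = 0) :
    ∃ γ0 N0 : ℤ, co (Θ 0 ^ β 0 * Θ 1 ^ β 1 * Θ 2 ^ β 2) (γ0, N0) = 1 ∧ ∀ α : Fin 3 →₀ ℕ,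
      α 0 + α 1 + α 2 = β 0 + β 1 + β 2 → ∀ γ ≤ γ0,
        co (Θ 0 ^ α 0 * Θ 1 ^ α 1 * Θ 2 ^ α 2) (γ, N0) ≠ 0 → α = β ∧ γ = γ0 := by
  have ext3 : ∀ α : Fin 3 →₀ ℕ, α 0 = β 0 → α 1 = β 1 → α 2 = β 2 → α = β := fun α h0 h1 h2 => by
    ext i
    fin_cases i
    exacts [h0, h1, h2]
  have p3 : Θ 3 = Θ 0 := indep_per hΘ 0
  have p4 : Θ 4 = Θ 1 := indep_per hΘ 1
  obtain ⟨i, hi⟩ := hβ
  fin_cases i
  · have hi : β 0 = 0 := hi
    obtain ⟨γ0, N0, h1, h2⟩ := indep_key hq hΘ 1 (β 1) (β 2)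
    norm_num [p3] at h1 h2
    refine ⟨γ0, N0, by rw [hi, pow_zero, one_mul]; exact h1, fun α hα γ hγ hc => ?_⟩
    obtain ⟨t1, t2, t3, t4⟩ := h2 (α 1) (α 2) (α 0) (by omega) γ hγ (by
      rwa [mul_comm _ (Θ 0 ^ α 0), ← mul_assoc])
    exact ⟨ext3 α (t3.trans hi.symm) t1 t2, t4⟩
  · have hi : β 1 = 0 := hi
    obtain ⟨γ0, N0, h1, h2⟩ := indep_key hq hΘ 2 (β 2) (β 0)
    norm_num [p3, p4] at h1 h2
    refine ⟨γ0, N0, by rw [hi, pow_zero, mul_one, mul_comm]; exact h1, fun α hα γ hγ hc => ?_⟩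
    obtain ⟨t1, t2, t3, t4⟩ := h2 (α 2) (α 0) (α 1) (by omega) γ hγ (by
      rwa [mul_assoc, mul_comm])
    exact ⟨ext3 α t2 (t3.trans hi.symm) t1, t4⟩
  · have hi : β 2 = 0 := hi
    obtain ⟨γ0, N0, h1, h2⟩ := indep_key hq hΘ 0 (β 0) (β 1)
    norm_num at h1 h2
    refine ⟨γ0, N0, by rw [hi, pow_zero, mul_one]; exact h1, fun α hα γ hγ hc => ?_⟩
    obtain ⟨t1, t2, t3, t4⟩ := h2 (α 0) (α 1) (α 2) (by omega) γ hγ hc
    exact ⟨ext3 α t1 t2 (t3.trans hi.symm), t4⟩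

theorem indep {p q : ℤ} (hq : 0 < q) {Θ : ℤ → L} (hΘ : IsTheta p q Θ) {n : ℕ}
    {h : MvPolynomial (Fin 3) K} (hh : h.IsHomogeneous n)
    (hU : ∀ α ∈ h.support, ∃ i, α i = 0) (h0 : ev Θ h = 0) : h = 0 := by
  classical
  by_contra hne
  obtain ⟨β, hβ, hmin⟩ := h.support.exists_min_image (fun α => (h.coeff α).order)
    (MvPolynomial.support_nonempty.2 hne)
  obtain ⟨γ0, N0, h1, h2⟩ := indep_key3 hq hΘ β (hU β hβ)
  have hdeg : ∀ α ∈ h.support, α 0 + α 1 + α 2 = n := fun α hα => by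
    have := hh (MvPolynomial.mem_support_iff.1 hα)
    rw [Finsupp.weight_apply, Finsupp.sum_fintype _ _ (by simp), Fin.sum_univ_three] at this
    simpa using this
  have hev : ev Θ h = ∑ α ∈ h.support, ι (h.coeff α) * (Θ 0 ^ α 0 * Θ 1 ^ α 1 * Θ 2 ^ α 2) := by
    rw [ev, MvPolynomial.coe_eval₂Hom, MvPolynomial.eval₂_eq']
    refine Finset.sum_congr rfl fun α _ => ?_
    rw [Fin.prod_univ_three]
    rfl
  have key : ∀ α ∈ h.support, ∀ g : ℤ, (h.coeff α).coeff g *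
      co (Θ 0 ^ α 0 * Θ 1 ^ α 1 * Θ 2 ^ α 2) ((h.coeff β).order + γ0 - g, N0) ≠ 0 →
      α = β ∧ g = (h.coeff β).order := fun α hα g hg => by
    have t1 := HahnSeries.order_le_of_coeff_ne_zero (left_ne_zero_of_mul hg)
    have t2 := hmin α hα
    have := h2 α ((hdeg α hα).trans (hdeg β hβ).symm) _ (by omega) (right_ne_zero_of_mul hg)
    exact ⟨this.1, by omega⟩
  have hc := congrArg (fun θ => co θ ((h.coeff β).order + γ0, N0)) h0
  simp only [hev, co_sum, co_zero, co_ι_mul] at hc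
  rw [Finset.sum_eq_single_of_mem β hβ, finsum_eq_single _ (h.coeff β).order, add_sub_cancel_left,
    h1, mul_one] at hc
  · exact MvPolynomial.mem_support_iff.1 hβ (HahnSeries.coeff_order_eq_zero.1 hc)
  · intro g hg
    by_contra hx
    exact hg (key β hβ g hx).2
  · intro α hα hab
    refine finsum_eq_zero_of_forall_eq_zero fun g => ?_
    by_contra hx
    exact hab (key α hα g hx).1

end Crest.Agent.R259
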