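import Crest.Agent.R259.Defs

/-! Row 259: jets, units and leading coefficients. -/

set_option autoImplicit false

noncomputable section

namespace Crest.Agent.R259

open Crest.AlgGeometry

theorem vanish_dvd {D W σ : Type*} [CommRing D] [CommRing W] (κ : D →+* W)
    (f : MvPolynomial σ D) (a : σ → D) (m : ℕ) (hf : VanishesToOrder f a m) (s : W)
    (α : σ → W) : s ^ m ∣ MvPolynomial.eval₂ κ (fun j => κ (a j) + s * α j) f := by
  classical
  set g : MvPolynomial σ D :=
    MvPolynomial.aeval (fun j => MvPolynomial.X j + MvPolynomial.C (a j)) f with hg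
  have key : MvPolynomial.eval₂ κ (fun j => κ (a j) + s * α j) f =
      MvPolynomial.eval₂ κ (fun j => s * α j) g := by
    rw [hg]
    clear hg hf g
    induction f using MvPolynomial.induction_on with
    | C c => simp
    | add p q hp hq => simp only [MvPolynomial.eval₂_add, map_add, hp, hq]
    | mul_X p n hp =>
      simp only [MvPolynomial.eval₂_mul, map_mul, hp, MvPolynomial.eval₂_X, MvPolynomial.aeval_X,
        MvPolynomial.eval₂_add, MvPolynomial.eval₂_C]
      ring
  rw [key, MvPolynomial.eval₂_eq]
  refine Finset.dvd_sum fun d hd => ?_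
  have hdeg : m ≤ d.degree := by
    by_contra hlt
    push Not at hlt
    have h0 := hf d.degree hlt
    rw [← hg] at h0
    have h1 := congrArg (MvPolynomial.coeff d) h0
    rw [MvPolynomial.coeff_homogeneousComponent, if_pos rfl, MvPolynomial.coeff_zero] at h1
    exact (MvPolynomial.mem_support_iff.1 hd) h1
  refine Dvd.dvd.mul_left ?_ _
  simp only [mul_pow, Finset.prod_mul_distrib, Finset.prod_pow_eq_pow_sum]
  refine Dvd.dvd.mul_right (pow_dvd_pow s ?_) _
  simpa [Finsupp.degree_apply] using hdeg

theorem isUnit_hmap {A B : Type*} [CommRing A] [CommRing B] [IsDomain B] (f : A →+* B)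
    (u : HahnSeries ℤ A) (hu : IsUnit (f u.leadingCoeff)) : IsUnit (hmap f u) := by
  rw [HahnSeries.isUnit_iff, HahnSeries.leadingCoeff_eq]
  have h0 : (hmap f u).coeff u.order ≠ 0 := by
    rw [hmap_coeff, ← HahnSeries.leadingCoeff_eq]
    exact hu.ne_zero
  have hne : hmap f u ≠ 0 := HahnSeries.ne_zero_of_coeff_ne_zero h0
  have hord : (hmap f u).order = u.order := by
    refine le_antisymm (HahnSeries.order_le_of_coeff_ne_zero h0) ?_
    by_contra hlt
    push Not at hlt
    have h1 := HahnSeries.coeff_eq_zero_of_lt_order hlt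
    have h2 : (hmap f u).coeff (hmap f u).order = 0 := by
      rw [hmap_coeff, h1, map_zero]
    exact hne (HahnSeries.coeff_order_eq_zero.1 h2)
  rw [hord, hmap_coeff, ← HahnSeries.leadingCoeff_eq]
  exact hu

/-- reduction modulo `s` -/
theorem exists_red (y : LS) : ∃ z : LS,
    y = hmap (PowerSeries.C : ℂ →+* S) (hmap (PowerSeries.constantCoeff : S →+* ℂ) y) +
      HahnSeries.C (PowerSeries.X : S) * z := by
  let sh : ZeroHom S S :=
    { toFun := fun a => PowerSeries.mk (fun n => PowerSeries.coeff (n + 1) a)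
      map_zero' := by ext n; simp }
  refine ⟨y.map sh, ?_⟩
  ext1
  funext g
  rw [HahnSeries.coeff_add, hmap_coeff, hmap_coeff, HahnSeries.C_mul_eq_smul,
    HahnSeries.coeff_smul, smul_eq_mul, add_comm]
  exact PowerSeries.eq_X_mul_shift_add_const (y.coeff g)

/-- the lowest `τ`-coefficient (deformation to the normal cone) -/
theorem coeff_tau {B : Type*} [CommRing B] (T : Finset ℕ) (g ρ : Polynomial B) (y : B)
    (hg : g = Polynomial.X * (Polynomial.C y + Polynomial.X * ρ)) (j : ℕ → ℕ)
    (h : ℕ → Polynomial B) (μ : ℕ) (hμ : ∀ l ∈ T, μ ≤ l + j l) :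
    (∑ l ∈ T, Polynomial.X ^ l * (g ^ j l * h l)).coeff μ =
      ∑ l ∈ T with l + j l = μ, y ^ j l * (h l).coeff 0 := by
  classical
  rw [Polynomial.finsetSum_coeff, Finset.sum_filter]
  refine Finset.sum_congr rfl fun l hl => ?_
  have e : Polynomial.X ^ l * (g ^ j l * h l) =
      Polynomial.X ^ (l + j l) * ((Polynomial.C y + Polynomial.X * ρ) ^ j l * h l) := by
    rw [hg, mul_pow, pow_add]; ring
  rw [e, Polynomial.coeff_X_pow_mul']
  by_cases hc : l + j l = μ
  · rw [if_pos hc, if_pos hc.le, hc, Nat.sub_self, Polynomial.mul_coeff_zero,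
      Polynomial.coeff_zero_eq_eval_zero ((Polynomial.C y + Polynomial.X * ρ) ^ j l)]
    simp
  · rw [if_neg hc, if_neg]
    have := hμ l hl
    omega

/-- first order Taylor expansion in one direction -/
theorem coeff_one_eval₂ {F B : Type*} [CommRing F] [CommRing B] (c : F →+* B) (a : Fin 3 → B)
    (ν : Fin 3) (δ : B) (h : MvPolynomial (Fin 3) F) :
    (MvPolynomial.eval₂ (Polynomial.C.comp c)
      (fun i => Polynomial.C (a i) + Polynomial.X * Polynomial.C (if i = ν then δ else 0)) h).coeff 1
      = δ * MvPolynomial.eval₂ c a (MvPolynomial.pderiv ν h) := by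
  classical
  have h0 : ∀ p : MvPolynomial (Fin 3) F, (MvPolynomial.eval₂ (Polynomial.C.comp c)
      (fun i => Polynomial.C (a i) + Polynomial.X * Polynomial.C (if i = ν then δ else 0)) p).coeff 0
      = MvPolynomial.eval₂ c a p := by
    intro p
    induction p using MvPolynomial.induction_on with
    | C x => simp
    | add p q hp hq => simp only [MvPolynomial.eval₂_add, Polynomial.coeff_add, hp, hq]
    | mul_X p n hp =>
      simp only [MvPolynomial.eval₂_mul, MvPolynomial.eval₂_X, Polynomial.mul_coeff_zero, hp]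
      simp
  induction h using MvPolynomial.induction_on with
  | C x => simp
  | add p q hp hq =>
    simp only [MvPolynomial.eval₂_add, Polynomial.coeff_add, hp, hq, map_add, mul_add]
  | mul_X p n hp =>
    rw [MvPolynomial.eval₂_mul, MvPolynomial.eval₂_X, mul_add, ← mul_assoc, Polynomial.coeff_add,
      Polynomial.coeff_mul_C, Polynomial.coeff_mul_C, Polynomial.coeff_mul_X, hp, h0,
      Derivation.leibniz, MvPolynomial.pderiv_X]
    by_cases hn : n = ν
    · subst hn
      simp [MvPolynomial.eval₂_add, MvPolynomial.eval₂_mul]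
      ring
    · simp [hn, MvPolynomial.eval₂_mul]
      ring

theorem coeff_one_add_C_mul_X_pow {B : Type*} [CommRing B] (c : B) (j k : ℕ) :
    ((1 + Polynomial.C c * Polynomial.X : Polynomial B) ^ j).coeff k = (j.choose k : B) * c ^ k := by
  have e : (1 + Polynomial.C c * Polynomial.X : Polynomial B) ^ j =
      ((1 + Polynomial.X : Polynomial B) ^ j).comp (Polynomial.C c * Polynomial.X) := by
    simp
  rw [e, Polynomial.comp_C_mul_X_coeff, Polynomial.coeff_one_add_X_pow]

end Crest.Agent.R259
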