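import Crest.Agent.R259.Jet

/-! Row 259: the local computation at one point (deformation to the normal cone). -/

set_option autoImplicit false

noncomputable section

namespace Crest.Agent.R259

open Crest.AlgGeometry Polynomial

/-- exponent vector of the homogenised monomial -/
def ex (d : ℕ) (α : Fin 2 →₀ ℕ) : Fin 3 →₀ ℕ := Finsupp.cons (d - α.degree) α

theorem ex_inj (d : ℕ) : Function.Injective (ex d) := by
  intro α β h
  have := congrArg Finsupp.tail h
  simpa [ex] using this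

theorem ex_degree {d : ℕ} {α : Fin 2 →₀ ℕ} (h : α.degree ≤ d) : (ex d α).degree = d := by
  rw [Finsupp.degree_eq_sum, Fin.sum_univ_succ]
  simp only [ex, Finsupp.cons_zero, Finsupp.cons_succ]
  rw [← Finsupp.degree_eq_sum]
  omega

variable {F B : Type*} [CommRing F] [CommRing B]

theorem degree_le_of_mem {d : ℕ} {f : MvPolynomial (Fin 2) F} (hf : f.totalDegree ≤ d)
    {α : Fin 2 →₀ ℕ} (hα : α ∈ f.support) : α.degree ≤ d := by
  have := (MvPolynomial.le_totalDegree hα).trans hf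
  rw [Finsupp.sum_fintype _ _ (fun _ => rfl)] at this
  rwa [Finsupp.degree_eq_sum]

/-- the normal coordinate `1 + s w` -/
def yy (s : B) : B[X] := 1 + C s * X

/-- the parametrisation of a neighbourhood of the cubic -/
def psi (jj : F →+* B) (s : B) (a : Fin 3 → B) (ν : Fin 3) (ui : B) :
    MvPolynomial (Fin 3) F →+* B[X][X] :=
  MvPolynomial.eval₂Hom (C.comp (C.comp jj))
    (fun i : Fin 3 => C (C (a i)) + X * C (if i = ν then yy s * C ui else 0))

/-- the special point -/
def pt (red : B →+* F) (a : Fin 3 → B) (ν : Fin 3) (ui li : B) (j : Fin 2) : F[X] :=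
  C (red (a j.succ * li)) + X * C (red (if j.succ = ν then ui * li else 0))

theorem eval₂_C_comp (jj : F →+* B) (a : Fin 3 → B) (h : MvPolynomial (Fin 3) F) :
    MvPolynomial.eval₂ ((C : B →+* B[X]).comp jj) (fun i => C (a i)) h =
      C (MvPolynomial.eval₂ jj a h) := by
  have : MvPolynomial.eval₂Hom ((C : B →+* B[X]).comp jj) (fun i : Fin 3 => C (a i)) =
      (C : B →+* B[X]).comp (MvPolynomial.eval₂Hom jj a) := by
    refine MvPolynomial.ringHom_ext (fun c => ?_) (fun i => ?_)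
    · simp
    · simp
  exact RingHom.congr_fun this h

theorem psi_coeff_zero (jj : F →+* B) (s : B) (a : Fin 3 → B) (ν : Fin 3) (ui : B)
    (h : MvPolynomial (Fin 3) F) :
    (psi jj s a ν ui h).coeff 0 = C (MvPolynomial.eval₂ jj a h) := by
  have : (constantCoeff : B[X][X] →+* B[X]).comp (psi jj s a ν ui) =
      (C : B →+* B[X]).comp (MvPolynomial.eval₂Hom jj a) := by
    refine MvPolynomial.ringHom_ext (fun c => ?_) (fun i => ?_)
    · simp [psi]
    · simp [psi]
  exact RingHom.congr_fun this h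

theorem psi_G (jj : F →+* B) (s : B) (a : Fin 3 → B) (ν : Fin 3) (ui : B)
    (G : MvPolynomial (Fin 3) F) (hG : MvPolynomial.eval₂ jj a G = 0)
    (hu : MvPolynomial.eval₂ jj a (MvPolynomial.pderiv ν G) * ui = 1) :
    ∃ ρ : B[X][X], psi jj s a ν ui G = X * (C (yy s) + X * ρ) := by
  have h0 : (psi jj s a ν ui G).coeff 0 = 0 := by rw [psi_coeff_zero, hG]; simp
  have h1 : (psi jj s a ν ui G).coeff 1 = yy s := by
    have := coeff_one_eval₂ ((C : B →+* B[X]).comp jj) (fun i => C (a i)) ν (yy s * C ui) G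
    rw [eval₂_C_comp] at this
    refine this.trans ?_
    rw [mul_assoc, ← C_mul, mul_comm ui, hu]
    simp
  refine ⟨(psi jj s a ν ui G).divX.divX, ?_⟩
  have e1 := X_mul_divX_add (psi jj s a ν ui G)
  have e2 := X_mul_divX_add (psi jj s a ν ui G).divX
  rw [h0] at e1
  rw [coeff_divX, zero_add, h1] at e2
  rw [add_comm (C (yy s)), e2]
  simpa using e1.symm

theorem local_dvd (jj : F →+* B) (red : B →+* F) (s : B)
    (hred : ∀ y : B, ∃ z : B, y = jj (red y) + s * z) (a : Fin 3 → B) {ν : Fin 3} (hν : ν ≠ 0)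
    (ui li : B) (hli : a 0 * li = 1) {d m : ℕ} (f : MvPolynomial (Fin 2) F[X])
    (hf : f.totalDegree ≤ d) (hv : VanishesToOrder f (pt red a ν ui li) m) :
    (C (C s) : B[X][X]) ^ m ∣ ∑ α ∈ f.support,
      (f.coeff α).map ((C : B →+* B[X]).comp jj) *
        psi jj s a ν ui (MvPolynomial.monomial (ex d α) 1) := by
  classical
  set κ : F[X] →+* B[X][X] := mapRingHom ((C : B →+* B[X]).comp jj) with hκ
  have hα : ∀ j : Fin 2, ∃ b : B[X][X], κ (pt red a ν ui li j) + C (C s) * b =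
      psi jj s a ν ui (MvPolynomial.X j.succ) * C (C li) := by
    intro j
    obtain ⟨za, hza⟩ := hred (a j.succ * li)
    obtain ⟨zb, hzb⟩ := hred (if j.succ = ν then ui * li else 0)
    refine ⟨C (C za) + X * C (C zb + X * C (if j.succ = ν then ui * li else 0)), ?_⟩
    have hza' : jj (red (a j.succ * li)) = a j.succ * li - s * za := by
      rw [eq_sub_iff_add_eq]; exact hza.symm
    have hzb' : jj (red (if j.succ = ν then ui * li else 0)) =
        (if j.succ = ν then ui * li else 0) - s * zb := by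
      rw [eq_sub_iff_add_eq]; exact hzb.symm
    simp only [hκ, pt, psi, coe_mapRingHom, Polynomial.map_add, Polynomial.map_mul, map_C, map_X,
      RingHom.comp_apply, hza', hzb', MvPolynomial.eval₂Hom_X']
    split_ifs with h
    · simp only [yy, map_add, map_mul, map_sub, map_one]
      ring
    · simp only [map_add, map_mul, map_sub, map_zero]
      ring
  choose b hb using hα
  have h1 := vanish_dvd κ f _ m hv (C (C s)) b
  simp only [hb] at h1
  have hΛ : psi jj s a ν ui (MvPolynomial.X 0) = C (C (a 0)) := by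
    simp [psi, hν.symm]
  have hΛi : (C (C (a 0)) : B[X][X]) * C (C li) = 1 := by
    rw [← C_mul, ← C_mul, hli]; simp
  refine (h1.mul_left ((C (C (a 0)) : B[X][X]) ^ d)).trans (dvd_of_eq ?_)
  rw [MvPolynomial.eval₂_eq', Finset.mul_sum]
  refine Finset.sum_congr rfl fun α hα => ?_
  have hd : α.degree ≤ d := degree_le_of_mem hf hα
  have hm : (MvPolynomial.monomial (ex d α) (1 : F)) =
      MvPolynomial.X 0 ^ (d - α.degree) *
        (MvPolynomial.X (0 : Fin 2).succ ^ α 0 * MvPolynomial.X (1 : Fin 2).succ ^ α 1) := by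
    rw [MvPolynomial.monomial_eq, Finsupp.prod_fintype _ _ (fun _ => pow_zero _),
      Fin.prod_univ_succ, Fin.prod_univ_two]
    simp only [ex, Finsupp.cons_zero, Finsupp.cons_succ, map_one, one_mul]
  rw [hm, map_mul, map_mul, map_pow, map_pow, map_pow, hΛ, Fin.prod_univ_two]
  have hdeg : α.degree = α 0 + α 1 := by rw [Finsupp.degree_eq_sum, Fin.sum_univ_two]
  obtain ⟨n, hn⟩ := Nat.exists_eq_add_of_le hd
  have hn' : d - α.degree = n := by omega
  rw [hn', hn, hdeg]
  generalize (C (C (a 0)) : B[X][X]) = Λ at hΛi ⊢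
  generalize (C (C li) : B[X][X]) = Λi at hΛi ⊢
  generalize psi jj s a ν ui (MvPolynomial.X (0 : Fin 2).succ) = Y0
  generalize psi jj s a ν ui (MvPolynomial.X (1 : Fin 2).succ) = Y1
  have h0 : (Λ * Λi) ^ α 0 = 1 := by rw [hΛi, one_pow]
  have h1 : (Λ * Λi) ^ α 1 = 1 := by rw [hΛi, one_pow]
  calc Λ ^ (α 0 + α 1 + n) * (κ (f.coeff α) * ((Y0 * Λi) ^ α 0 * (Y1 * Λi) ^ α 1))
      = κ (f.coeff α) * (Λ ^ n * (Y0 ^ α 0 * Y1 ^ α 1)) * ((Λ * Λi) ^ α 0 * (Λ * Λi) ^ α 1) := by
        ring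
    _ = _ := by rw [h0, h1, mul_one, mul_one]; rfl

/-- the `τ ^ l`-layer of the homogenisation of `f` -/
def lay (d : ℕ) (f : MvPolynomial (Fin 2) F[X]) (l : ℕ) : MvPolynomial (Fin 3) F :=
  ∑ α ∈ f.support, MvPolynomial.monomial (ex d α) ((f.coeff α).coeff l)

theorem lay_hom {d : ℕ} {f : MvPolynomial (Fin 2) F[X]} (hf : f.totalDegree ≤ d) (l : ℕ) :
    (lay d f l).IsHomogeneous d :=
  MvPolynomial.IsHomogeneous.sum _ _ _ fun _ hα =>
    MvPolynomial.isHomogeneous_monomial _ (ex_degree (degree_le_of_mem hf hα))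

theorem lay_coeff (d : ℕ) (f : MvPolynomial (Fin 2) F[X]) (l : ℕ) {α : Fin 2 →₀ ℕ}
    (hα : α ∈ f.support) : (lay d f l).coeff (ex d α) = (f.coeff α).coeff l := by
  classical
  rw [lay, MvPolynomial.coeff_sum, Finset.sum_eq_single α]
  · simp
  · intro β _ hβ
    rw [MvPolynomial.coeff_monomial, if_neg fun h => hβ (ex_inj d h)]
  · intro h; exact absurd hα h

theorem sum_lay (jj : F →+* B) (s : B) (a : Fin 3 → B) (ν : Fin 3) (ui : B) (d : ℕ)
    (f : MvPolynomial (Fin 2) F[X]) (D : ℕ) (hD : ∀ α ∈ f.support, (f.coeff α).natDegree < D) :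
    ∑ α ∈ f.support, (f.coeff α).map ((C : B →+* B[X]).comp jj) *
        psi jj s a ν ui (MvPolynomial.monomial (ex d α) 1) =
      ∑ l ∈ Finset.range D, X ^ l * psi jj s a ν ui (lay d f l) := by
  simp only [lay, map_sum, Finset.mul_sum]
  rw [Finset.sum_comm]
  refine Finset.sum_congr rfl fun α hα => ?_
  conv_lhs => rw [as_sum_range_C_mul_X_pow' _ (hD α hα)]
  rw [Polynomial.map_sum, Finset.sum_mul]
  refine Finset.sum_congr rfl fun l _ => ?_
  have : MvPolynomial.monomial (ex d α) ((f.coeff α).coeff l) =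
      MvPolynomial.C ((f.coeff α).coeff l) * MvPolynomial.monomial (ex d α) 1 := by
    rw [MvPolynomial.C_mul_monomial, mul_one]
  have hC : psi jj s a ν ui (MvPolynomial.C ((f.coeff α).coeff l)) =
      C (C (jj ((f.coeff α).coeff l))) := by simp [psi]
  rw [this, map_mul, hC]
  simp only [Polynomial.map_mul, Polynomial.map_pow, map_C, map_X, RingHom.comp_apply]
  ring

/-- the limit on the normal cone vanishes to order `m` -/
theorem cone_dvd (jj : F →+* B) (red : B →+* F) (s : B)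
    (hred : ∀ y : B, ∃ z : B, y = jj (red y) + s * z) (a : Fin 3 → B) {ν : Fin 3} (hν : ν ≠ 0)
    (ui li : B) (hli : a 0 * li = 1) (G : MvPolynomial (Fin 3) F)
    (hG : MvPolynomial.eval₂ jj a G = 0)
    (hu : MvPolynomial.eval₂ jj a (MvPolynomial.pderiv ν G) * ui = 1)
    {d m : ℕ} (f : MvPolynomial (Fin 2) F[X])
    (hf : f.totalDegree ≤ d) (hv : VanishesToOrder f (pt red a ν ui li) m)
    (D : ℕ) (hD : ∀ α ∈ f.support, (f.coeff α).natDegree < D) (T : Finset ℕ)
    (hT : T ⊆ Finset.range D) (hT0 : ∀ l ∈ Finset.range D, l ∉ T → lay d f l = 0)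
    (j : ℕ → ℕ) (h : ℕ → MvPolynomial (Fin 3) F) (hjh : ∀ l ∈ T, lay d f l = G ^ j l * h l)
    (μ : ℕ) (hμ : ∀ l ∈ T, μ ≤ l + j l) (k : ℕ) :
    s ^ m ∣ ∑ l ∈ T with l + j l = μ,
      ((j l).choose k : B) * s ^ k * MvPolynomial.eval₂ jj a (h l) := by
  obtain ⟨ρ, hρ⟩ := psi_G jj s a ν ui G hG hu
  have h1 := local_dvd jj red s hred a hν ui li hli f hf hv
  rw [sum_lay jj s a ν ui d f D hD] at h1
  have h2 : ∑ l ∈ Finset.range D, X ^ l * psi jj s a ν ui (lay d f l) =
      ∑ l ∈ T, X ^ l * (psi jj s a ν ui G ^ j l * psi jj s a ν ui (h l)) := by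
    rw [← Finset.sum_subset hT fun l hl hl' => by rw [hT0 l hl hl']; simp]
    refine Finset.sum_congr rfl fun l hl => ?_
    rw [hjh l hl, map_mul, map_pow]
  rw [h2, ← C_pow, C_dvd_iff_dvd_coeff] at h1
  have h3 := h1 μ
  rw [coeff_tau T _ ρ (yy s) hρ j (fun l => psi jj s a ν ui (h l)) μ hμ, ← C_pow,
    C_dvd_iff_dvd_coeff] at h3
  have h4 := h3 k
  simpa only [finsetSum_coeff, psi_coeff_zero, coeff_mul_C, yy,
    coeff_one_add_C_mul_X_pow] using h4

end Crest.Agent.R259
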