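import Crest.Agent.R259.Defs

/-! Row 259: choice of the shear. -/

set_option autoImplicit false

noncomputable section

namespace Crest.Agent.R259

private theorem arith_of_above {r d M : ℕ} {p q : ℤ} (hq : 0 < q)
    (h1 : q ^ 2 * r ≤ p ^ 2) (h2 : p * d < q * M) : Arith r d M p q := by
  intro k lo hi _ hlo hhi
  have hk : (0 : ℤ) ≤ k := Int.natCast_nonneg k
  have hq2 : 0 < q ^ 2 := by positivity
  have hlo' : -(q * (p * (d - 3 * k))) ≤ q ^ 2 * lo := by
    have := mul_le_mul_of_nonneg_left hlo hq.le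
    nlinarith
  have h3 : (q ^ 2 * r - p ^ 2) * k ≤ 0 := mul_nonpos_of_nonpos_of_nonneg (by linarith) hk
  have h4 : q * (p * d) < q * (q * M) := mul_lt_mul_of_pos_left h2 hq
  have h5 : q ^ 2 * (hi - lo + r * k) < q ^ 2 * M := by nlinarith
  exact lt_of_mul_lt_mul_left h5 hq2.le

private theorem arith_of_sq {n d : ℕ} (hn : 4 ≤ n) (hd : 1 ≤ d) :
    Arith (n ^ 2) d (n * d) ((n : ℤ) * (2 * n * d) - 1) (2 * n * d) := by
  intro k lo hi hk hlo hhi
  have hk0 : (0 : ℤ) ≤ k := Int.natCast_nonneg k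
  have hn' : (4 : ℤ) ≤ n := by exact_mod_cast hn
  have hd' : (1 : ℤ) ≤ d := by exact_mod_cast hd
  push_cast
  generalize (n : ℤ) = N at *
  generalize (d : ℤ) = D at *
  generalize (k : ℤ) = kk at *
  obtain ⟨q, hqdef⟩ : ∃ q : ℤ, q = 2 * N * D := ⟨_, rfl⟩
  rw [← hqdef] at hk hlo hhi
  have hq8 : 8 ≤ q := by rw [hqdef]; nlinarith
  have hq : 0 < q := by linarith
  -- `3 k < d`
  have h3k : 3 * kk < D := by
    by_contra h
    push Not at h
    have h1 : (N * q - 1) * kk ≤ q * (3 * kk) :=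
      hk.trans (mul_le_mul_of_nonneg_left h hq.le)
    have hkpos : 1 ≤ kk := by omega
    have h2 : 0 < (N - 3) * q - 1 := by nlinarith
    nlinarith
  -- the left edge
  have hlo' : -(N * (D - 3 * kk)) < lo := by
    have h1 : q * (-(N * (D - 3 * kk))) < q * lo := by nlinarith
    exact lt_of_mul_lt_mul_left h1 hq.le
  -- the right edge
  have hhi' : hi < -((N - 3) * N * kk) + 1 := by
    have h1 : (2 * N - 3) * kk < q := by
      rw [hqdef]; nlinarith
    have h2 : q * ((2 * N - 3) * kk) < q * q := mul_lt_mul_of_pos_left h1 hq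
    have h3 : q ^ 2 * hi < q ^ 2 * (-((N - 3) * N * kk) + 1) := by nlinarith
    exact lt_of_mul_lt_mul_left h3 (by positivity)
  nlinarith

theorem exists_shear {r d M : ℕ} (hr : 10 ≤ r) (hd : 1 ≤ d)
    (hM : (d : ℝ) * Real.sqrt r ≤ M) :
    ∃ p q : ℤ, 0 < q ∧ 3 * q < p ∧ Arith r d M p q := by
  have hsq : r * d ^ 2 ≤ M ^ 2 := by
    have h0 : (0 : ℝ) ≤ (d : ℝ) * Real.sqrt r := by positivity
    have h1 := pow_le_pow_left₀ h0 hM 2
    rw [mul_pow, Real.sq_sqrt (Nat.cast_nonneg r)] at h1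
    have h2 : ((r * d ^ 2 : ℕ) : ℝ) ≤ ((M ^ 2 : ℕ) : ℝ) := by push_cast; linarith
    exact_mod_cast h2
  rcases hsq.lt_or_eq with hlt | heq
  · have hr' : (10 : ℤ) ≤ r := by exact_mod_cast hr
    have hd' : (1 : ℤ) ≤ d := by exact_mod_cast hd
    have hlt' : (r : ℤ) * (d : ℤ) ^ 2 + 1 ≤ (M : ℤ) ^ 2 := by exact_mod_cast hlt
    have hM1 : (1 : ℤ) ≤ M := by
      have : 1 ≤ M := by
        rcases Nat.eq_zero_or_pos M with h | h
        · subst h; simp at hlt
        · exact h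
      exact_mod_cast this
    have hq : (0 : ℤ) < 2 * M * (d : ℤ) ^ 2 := by positivity
    have h1 : (2 * M * (d : ℤ) ^ 2) ^ 2 * r ≤ (2 * (M : ℤ) ^ 2 * d - 1) ^ 2 := by
      have ha : (0 : ℤ) ≤ 4 * (M : ℤ) ^ 2 * (d : ℤ) ^ 2 := by positivity
      have hb := mul_le_mul_of_nonneg_left hlt' ha
      have hc : (0 : ℤ) ≤ 4 * (M : ℤ) ^ 2 * d * (d - 1) :=
        mul_nonneg (by positivity) (by linarith)
      nlinarith
    have hp : (0 : ℤ) < 2 * (M : ℤ) ^ 2 * d - 1 := by nlinarith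
    refine ⟨2 * (M : ℤ) ^ 2 * d - 1, 2 * M * (d : ℤ) ^ 2, hq, ?_, arith_of_above hq h1 (by nlinarith)⟩
    by_contra h
    push Not at h
    have h2 := pow_le_pow_left₀ hp.le h 2
    have h3 : (0 : ℤ) < (2 * M * (d : ℤ) ^ 2) ^ 2 := by positivity
    nlinarith
  · have hdvd : d ∣ M := by
      have : d ^ 2 ∣ M ^ 2 := ⟨r, by rw [← heq]; ring⟩
      exact (Nat.pow_dvd_pow_iff two_ne_zero).1 this
    obtain ⟨n, rfl⟩ := hdvd
    have hrn : r = n ^ 2 := by
      have h1 : r * d ^ 2 = n ^ 2 * d ^ 2 := by rw [heq]; ring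
      exact Nat.eq_of_mul_eq_mul_right (by positivity) h1
    subst hrn
    have hn : 4 ≤ n := by
      by_contra h
      push Not at h
      have : n ^ 2 ≤ 3 ^ 2 := Nat.pow_le_pow_left (by omega) 2
      omega
    have hn' : (4 : ℤ) ≤ n := by exact_mod_cast hn
    have hd' : (1 : ℤ) ≤ d := by exact_mod_cast hd
    refine ⟨(n : ℤ) * (2 * n * d) - 1, 2 * n * d, by positivity, ?_, ?_⟩
    · have : (8 : ℤ) ≤ 2 * n * d := by nlinarith
      nlinarith
    · rw [mul_comm d n]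
      exact arith_of_sq hn hd

end Crest.Agent.R259
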