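import Crest.Agent.R259.Defs

/-! Row 259: the Bezout argument on the triangle with real shear. -/

set_option autoImplicit false

noncomputable section

namespace Crest.Agent.R259

theorem evS_C (x : ℂˣ) (c : ℂ) : evS x (LaurentPolynomial.C c) = PowerSeries.C c := by
  simp [evS]

private theorem tor_evS (x : ℂˣ) (P : Polynomial ℂ) :
    evS x (Polynomial.toLaurent P) = ((Polynomial.taylor (x : ℂ) P : Polynomial ℂ) : S) := by
  induction P using Polynomial.induction_on' with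
  | add p q hp hq => simp only [map_add, hp, hq, Polynomial.coe_add]
  | monomial n a =>
    rw [evS, LaurentPolynomial.eval₂_toLaurent, Polynomial.eval₂_monomial,
      Polynomial.taylor_monomial]
    simp [add_comm]

private theorem tor_count {r : ℕ} (x : Fin r → ℂˣ) (hx : Function.Injective x) (a : Fin r → ℕ)
    (P : Polynomial ℂ) (hP : P ≠ 0)
    (h : ∀ i, ∀ d < a i, (Polynomial.taylor (x i : ℂ) P).coeff d = 0) :
    P.natTrailingDegree + ∑ i, a i ≤ P.natDegree := by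
  classical
  have h1 : ∀ i, a i ≤ P.roots.count (x i : ℂ) := by
    intro i
    rw [Polynomial.count_roots, Polynomial.le_rootMultiplicity_iff hP,
      Polynomial.X_sub_C_pow_dvd_iff, Polynomial.X_pow_dvd_iff]
    exact h i
  have h0 : P.natTrailingDegree = P.roots.count 0 := by
    rw [Polynomial.count_roots, Polynomial.rootMultiplicity_eq_natTrailingDegree']
  have hinj : Function.Injective fun i => (x i : ℂ) := fun i j hij => hx (Units.ext hij)
  set s : Finset ℂ := insert 0 (Finset.univ.image fun i => (x i : ℂ)) with hs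
  have h2 : ∑ y ∈ s, P.roots.count y = P.roots.count 0 + ∑ i, P.roots.count (x i : ℂ) := by
    rw [hs, Finset.sum_insert (by simp), Finset.sum_image fun i _ j _ hij => hinj hij]
  have h3 : ∑ y ∈ s, P.roots.count y ≤ P.roots.card := by
    rw [← Multiset.sum_count_eq_card (s := s ∪ P.roots.toFinset) (m := P.roots)
      (fun y hy => Finset.mem_union_right _ (Multiset.mem_toFinset.2 hy))]
    exact Finset.sum_le_sum_of_subset Finset.subset_union_left
  have h4 := Polynomial.card_roots' P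
  have h5 : ∑ i, a i ≤ ∑ i, P.roots.count (x i : ℂ) := Finset.sum_le_sum fun i _ => h1 i
  omega

/-- a nonzero Laurent polynomial is nonzero at many points -/
theorem exists_pts (r : ℕ) (w : R) (hw : w ≠ 0) :
    ∃ x : Fin r → ℂˣ, Function.Injective x ∧ ∀ i, IsUnit (evS (x i) w) := by
  obtain ⟨n, P, hP⟩ := LaurentPolynomial.exists_T_pow w
  have hP0 : P ≠ 0 := by
    rintro rfl
    rw [map_zero] at hP
    exact hw ((LaurentPolynomial.isUnit_T (n : ℤ)).mul_left_eq_zero.1 hP.symm)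
  have hfin : (insert (0 : ℂ) {y | P.IsRoot y}).Finite :=
    (Polynomial.finite_setOfPred_isRoot hP0).insert 0
  have hinf := hfin.infinite_compl
  set g := hinf.natEmbedding with hg
  have hg0 : ∀ n, (g n : ℂ) ≠ 0 ∧ ¬ P.IsRoot (g n) := fun n => by
    have : (g n : ℂ) ∉ insert (0 : ℂ) {y | P.IsRoot y} := (g n).2
    rw [Set.mem_insert_iff, not_or] at this
    exact this
  refine ⟨fun i => Units.mk0 (g i) (hg0 i).1, fun i j hij => ?_, fun i => ?_⟩
  · have : (g i : ℂ) = g j := by simpa using hij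
    exact Fin.ext (g.injective (Subtype.ext this))
  · have h1 := tor_evS (Units.mk0 (g i) (hg0 i).1) P
    rw [hP, map_mul] at h1
    refine isUnit_of_mul_isUnit_left (y := evS (Units.mk0 (g i) (hg0 i).1)
      (LaurentPolynomial.T n)) ?_
    rw [h1, PowerSeries.isUnit_iff_constantCoeff, ← PowerSeries.coeff_zero_eq_constantCoeff_apply,
      Polynomial.coeff_coe, Polynomial.taylor_coeff_zero]
    exact IsUnit.mk0 _ (hg0 i).2


/-- a nonzero Laurent polynomial with support in `[lo, hi]` has at most `hi - lo` zeros -/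
theorem zeros_le {r : ℕ} (x : Fin r → ℂˣ) (hx : Function.Injective x) (a : Fin r → ℕ)
    (φ : R) (hφ : φ ≠ 0) (lo hi : ℤ) (hs : ∀ N, φ.coeff N ≠ 0 → lo ≤ N ∧ N ≤ hi)
    (hv : ∀ i, (PowerSeries.X : S) ^ a i ∣ evS (x i) φ) :
    ((∑ i, a i : ℕ) : ℤ) ≤ hi - lo := by
  obtain ⟨n, P, hP⟩ := LaurentPolynomial.exists_T_pow φ
  have hP0 : P ≠ 0 := by
    rintro rfl
    rw [map_zero] at hP
    exact hφ ((LaurentPolynomial.isUnit_T (n : ℤ)).mul_left_eq_zero.1 hP.symm)
  have hsup : ∀ k : ℕ, P.coeff k ≠ 0 → lo ≤ k - n ∧ (k : ℤ) - n ≤ hi := by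
    intro k hk
    refine hs _ fun h0 => ?_
    have h1 : (k : ℤ) ∈ (Polynomial.toLaurent P).coeff.support := by
      rw [LaurentPolynomial.support_coeff_toLaurent]
      exact Finset.mem_map_of_mem _ (Polynomial.mem_support_iff.2 hk)
    rw [Finsupp.mem_support_iff, hP, LaurentPolynomial.T,
      AddMonoidAlgebra.coeff_mul_single_apply, ← sub_eq_add_neg, h0, zero_mul] at h1
    exact h1 rfl
  have h1 := tor_count x hx a P hP0 fun i d hd => by
    have h2 := (hv i).mul_right (evS (x i) (LaurentPolynomial.T n))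
    rw [← map_mul, ← hP, tor_evS, PowerSeries.X_pow_dvd_iff] at h2
    simpa using h2 d hd
  have h2 := (hsup _ (Polynomial.leadingCoeff_ne_zero.2 hP0)).2
  have h3 := (hsup _ (Polynomial.trailingCoeff_eq_zero.not.2 hP0)).1
  omega


/-- if the first `k` binomial moments of a nonzero vector vanish, its support has spread `≥ k` -/
theorem spread (J : Finset ℕ) (c : ℕ → ℂ) (k : ℕ)
    (hk : ∀ k' < k, ∑ j ∈ J, (j.choose k' : ℂ) * c j = 0) (hc : ∃ j ∈ J, c j ≠ 0) :
    ∃ j₁ ∈ J, ∃ j₂ ∈ J, c j₁ ≠ 0 ∧ c j₂ ≠ 0 ∧ j₁ + k ≤ j₂ := by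
  classical
  set P : Polynomial ℂ := ∑ j ∈ J, Polynomial.monomial j (c j) with hP
  have hco : ∀ j, P.coeff j = if j ∈ J then c j else 0 := by
    intro j
    simp [hP, Polynomial.coeff_monomial]
  have hne : ∀ j, P.coeff j ≠ 0 → j ∈ J ∧ c j ≠ 0 := by
    intro j hj
    rw [hco] at hj
    split_ifs at hj with h
    · exact ⟨h, hj⟩
    · exact absurd rfl hj
  have hP0 : P ≠ 0 := by
    obtain ⟨j, hj, hj0⟩ := hc
    intro h
    have := hco j
    rw [h, if_pos hj] at this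
    exact hj0 (by simpa using this.symm)
  have h1 := tor_count (r := 1) (fun _ => 1) (fun i j _ => Subsingleton.elim i j) (fun _ => k) P hP0
    fun _ d hd => by
      rw [← hk d hd, hP, map_sum, Polynomial.finsetSum_coeff]
      refine Finset.sum_congr rfl fun j _ => ?_
      rw [Polynomial.taylor_monomial, Polynomial.coeff_C_mul, Polynomial.coeff_X_add_C_pow]
      simp [mul_comm]
  obtain ⟨h2, h3⟩ := hne _ (Polynomial.leadingCoeff_ne_zero.2 hP0)
  obtain ⟨h4, h5⟩ := hne _ (Polynomial.trailingCoeff_eq_zero.not.2 hP0)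
  exact ⟨_, h4, _, h2, h5, h3, by simpa using h1⟩


theorem toric_coeff (J : Finset ℕ) (θ : ℕ → R) (k : ℕ) (N : ℤ) :
    (∑ j ∈ J, (j.choose k : R) * θ j).coeff N = ∑ j ∈ J, (j.choose k : ℂ) * (θ j).coeff N := by
  rw [AddMonoidAlgebra.coeff_sum, Finsupp.finsetSum_apply]
  refine Finset.sum_congr rfl fun j _ => ?_
  rw [← nsmul_eq_mul, AddMonoidAlgebra.coeff_smul, Finsupp.smul_apply, nsmul_eq_mul]

theorem toric_dvd {m k : ℕ} {A : S} (h : (PowerSeries.X : S) ^ m ∣ PowerSeries.X ^ k * A) :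
    (PowerSeries.X : S) ^ (m - k) ∣ A := by
  rcases le_total m k with hmk | hmk
  · rw [Nat.sub_eq_zero_of_le hmk, pow_zero]; exact one_dvd _
  · obtain ⟨n, rfl⟩ := Nat.exists_eq_add_of_le hmk
    rw [pow_add] at h
    rw [Nat.add_sub_cancel_left]
    exact (mul_dvd_mul_iff_left (pow_ne_zero k PowerSeries.X_ne_zero)).1 h

theorem toric {r d : ℕ} (m : Fin r → ℕ) {p q : ℤ} (hq : 0 < q) (hp : 3 * q < p)
    (hA : Arith r d (∑ i, m i) p q) (x : Fin r → ℂˣ) (hx : Function.Injective x)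
    (J : Finset ℕ) (θ : ℕ → R)
    (hs : ∀ j ∈ J, ∀ N : ℤ, (θ j).coeff N ≠ 0 →
      0 ≤ q * N + p * (d - 3 * j) ∧ q * N + (p - 3 * q) * (d - 3 * j) ≤ 0)
    (hv : ∀ (i : Fin r) (k : ℕ), (PowerSeries.X : S) ^ m i ∣
      PowerSeries.X ^ k * evS (x i) (∑ j ∈ J, (j.choose k : R) * θ j)) :
    ∀ j ∈ J, θ j = 0 := by
  classical
  by_contra hne
  push Not at hne
  obtain ⟨j0, hj0, hθ0⟩ := hne
  have hp0 : 0 < p := by linarith
  have hex : ∃ k : ℕ, (∑ j ∈ J, (j.choose k : R) * θ j) ≠ 0 := by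
    by_contra hall
    push Not at hall
    have h1 : (θ j0).coeff ≠ 0 := fun h => hθ0 (AddMonoidAlgebra.coeff_eq_zero.1 h)
    obtain ⟨N, hN⟩ := Finsupp.ne_iff.1 h1
    obtain ⟨j₁, -, j₂, hj₂, -, -, hle⟩ := spread J (fun j => (θ j).coeff N) (J.sup id + 1)
      (fun k' _ => by rw [← toric_coeff, hall k']; rfl) ⟨j0, hj0, hN⟩
    have : j₂ ≤ J.sup id := Finset.le_sup (f := id) hj₂
    omega
  obtain ⟨k, hk, hmin⟩ : ∃ k : ℕ, (∑ j ∈ J, (j.choose k : R) * θ j) ≠ 0 ∧
      ∀ k' < k, (∑ j ∈ J, (j.choose k' : R) * θ j) = 0 :=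
    ⟨Nat.find hex, Nat.find_spec hex, fun k' hk' => by simpa using Nat.find_min hex hk'⟩
  obtain ⟨φ, hφ⟩ : ∃ φ : R, φ = ∑ j ∈ J, (j.choose k : R) * θ j := ⟨_, rfl⟩
  have key : ∀ N : ℤ, φ.coeff N ≠ 0 → p * k ≤ q * d ∧ -(p * (d - 3 * k)) ≤ q * N ∧
      q ^ 2 * N ≤ -((p - 3 * q) * p * k) := by
    intro N hN
    rw [hφ, toric_coeff] at hN
    obtain ⟨j, hj, hjne⟩ := Finset.exists_ne_zero_of_sum_ne_zero hN
    obtain ⟨j₁, hj₁, j₂, hj₂, c1, c2, hle⟩ := spread J (fun j => (θ j).coeff N) k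
      (fun k' hk' => by rw [← toric_coeff, hmin k' hk']; rfl) ⟨j, hj, right_ne_zero_of_mul hjne⟩
    have a1 := (hs j₁ hj₁ N c1).2
    have a2 := (hs j₂ hj₂ N c2).1
    have hle' : (j₁ : ℤ) + k ≤ j₂ := by exact_mod_cast hle
    have hj1 : (0 : ℤ) ≤ j₁ := Int.natCast_nonneg _
    have b1 : p * ((d : ℤ) - 3 * j₂) ≤ p * ((d - 3 * j₁) - 3 * k) :=
      mul_le_mul_of_nonneg_left (by linarith) hp0.le
    have b2 : p * k ≤ q * ((d : ℤ) - 3 * j₁) := by nlinarith
    have b3 : q * ((d : ℤ) - 3 * j₁) ≤ q * d := mul_le_mul_of_nonneg_left (by linarith) hq.le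
    have b4 : p * (((d : ℤ) - 3 * j₁) - 3 * k) ≤ p * (d - 3 * k) :=
      mul_le_mul_of_nonneg_left (by linarith) hp0.le
    have b5 : (p - 3 * q) * (p * k) ≤ (p - 3 * q) * (q * ((d : ℤ) - 3 * j₁)) :=
      mul_le_mul_of_nonneg_left b2 (by linarith)
    have b6 : q * (q * N + (p - 3 * q) * (d - 3 * j₁)) ≤ 0 := mul_nonpos_of_nonneg_of_nonpos hq.le a1
    refine ⟨by linarith, by linarith, by nlinarith⟩
  rw [← hφ] at hk
  have hsupp : φ.coeff.support.Nonempty := by
    rw [Finsupp.support_nonempty_iff]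
    exact fun h => hk (AddMonoidAlgebra.coeff_eq_zero.1 h)
  have hlo := key _ (Finsupp.mem_support_iff.1 (φ.coeff.support.min'_mem hsupp))
  have hhi := key _ (Finsupp.mem_support_iff.1 (φ.coeff.support.max'_mem hsupp))
  have hz := zeros_le x hx (fun i => m i - k) φ hk (φ.coeff.support.min' hsupp) (φ.coeff.support.max' hsupp)
    (fun N hN => ⟨Finset.min'_le _ _ (Finsupp.mem_support_iff.2 hN),
      Finset.le_max' _ _ (Finsupp.mem_support_iff.2 hN)⟩)
    (fun i => toric_dvd (hφ ▸ hv i k))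
  have hlt := hA k _ _ hlo.1 hlo.2.1 hhi.2.2
  have hsum : ∑ i, m i ≤ ∑ i, (m i - k) + r * k := by
    calc ∑ i, m i ≤ ∑ i : Fin r, ((m i - k) + k) := Finset.sum_le_sum fun i _ => by omega
      _ = _ := by rw [Finset.sum_add_distrib]; simp
  have hsum' : ((∑ i, m i : ℕ) : ℤ) ≤ ((∑ i, (m i - k) : ℕ) : ℤ) + r * k := by exact_mod_cast hsum
  linarith

end Crest.Agent.R259
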