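import Crest.Agent.R259.Cubic
import Crest.Agent.R259.Indep
import Crest.Agent.R259.Factor
import Crest.Agent.R259.Toric
import Crest.Agent.R259.Local

/-! Row 259: the special configuration over `ℂ((t))[τ]`. -/

set_option autoImplicit false

noncomputable section

namespace Crest.Agent.R259

open Crest.AlgGeometry

/-- constants `ℂ((t)) → ℂ[[s]]((t))` -/
def jj : K →+* LS := hmap (PowerSeries.C : ℂ →+* S)
/-- reduction `s = 0` -/
def red : LS →+* K := hmap (PowerSeries.constantCoeff : S →+* ℂ)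
/-- the jet parameter -/
def sL : LS := HahnSeries.C (PowerSeries.X : S)
/-- expansion at the point `x` -/
def AA (x : ℂˣ) : L →+* LS := hmap (evS x)

theorem AA_ι (x : ℂˣ) (c : K) : AA x (ι c) = jj c := by
  ext1
  funext g
  simp [AA, ι, jj, evS_C]

theorem eval₂_AA (Θ : ℤ → L) (x : ℂˣ) (h : MvPolynomial (Fin 3) K) :
    MvPolynomial.eval₂ jj (fun i : Fin 3 => AA x (Θ ((i : ℕ) : ℤ))) h = AA x (ev Θ h) := by
  have : MvPolynomial.eval₂Hom jj (fun i : Fin 3 => AA x (Θ ((i : ℕ) : ℤ))) =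
      (AA x).comp (ev Θ) := by
    refine MvPolynomial.ringHom_ext (fun c => ?_) (fun i => ?_)
    · simp [ev, AA_ι]
    · simp [ev]
  exact RingHom.congr_fun this h

theorem sL_pow_mul_coeff (n : ℕ) (w : LS) (γ : ℤ) :
    (sL ^ n * w).coeff γ = PowerSeries.X ^ n * w.coeff γ := by
  rw [sL, ← map_pow, HahnSeries.C_mul_eq_smul, HahnSeries.coeff_smul, smul_eq_mul]

theorem special {r d : ℕ} (m : Fin r → ℕ) {p q : ℤ} (hq : 0 < q) (hp : 3 * q < p)
    (hA : Arith r d (∑ i, m i) p q) :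
    ∃ P : Fin r → Fin 2 → Polynomial K, ∀ f : MvPolynomial (Fin 2) (Polynomial K),
      f.totalDegree ≤ d → (∀ i, VanishesToOrder f (P i) (m i)) → f = 0 := by
  classical
  obtain ⟨Θ, hΘ⟩ := exists_theta p q hq
  obtain ⟨G, hG, hG0, hGE⟩ := exists_cubic hΘ
  have hind : ∀ (n : ℕ) (h : MvPolynomial (Fin 3) K), h.IsHomogeneous n →
      (∀ α ∈ h.support, ∃ i, α i = 0) → ev Θ h = 0 → h = 0 :=
    fun n h hh hU h0 => indep hq hΘ hh hU h0
  have : CharZero K := charZero_of_injective_algebraMap (algebraMap ℂ K).injective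
  obtain ⟨ν, hν, hu⟩ := exists_pderiv (ev Θ) hind hG hG0 hGE
  have hΘ0 : Θ 0 ≠ 0 := by
    intro h
    have := hΘ 0 (e p q 0) 0
    rw [h] at this
    simp at this
  obtain ⟨x, hx, hxu⟩ := exists_pts r
    ((ev Θ (MvPolynomial.pderiv ν G)).leadingCoeff * (Θ 0).leadingCoeff)
    (mul_ne_zero (HahnSeries.leadingCoeff_ne_zero.mpr hu) (HahnSeries.leadingCoeff_ne_zero.mpr hΘ0))
  have hui : ∀ i, ∃ ui : LS, AA (x i) (ev Θ (MvPolynomial.pderiv ν G)) * ui = 1 := fun i => by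
    have h := hxu i
    rw [map_mul] at h
    exact (isUnit_hmap _ _ (isUnit_of_mul_isUnit_left h)).exists_right_inv
  have hli : ∀ i, ∃ li : LS, AA (x i) (Θ 0) * li = 1 := fun i => by
    have h := hxu i
    rw [map_mul] at h
    exact (isUnit_hmap _ _ (isUnit_of_mul_isUnit_right h)).exists_right_inv
  choose ui hui using hui
  choose li hli using hli
  refine ⟨fun i => pt red (fun a : Fin 3 => AA (x i) (Θ ((a : ℕ) : ℤ))) ν (ui i) (li i),
    fun f hf hv => ?_⟩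
  by_contra hf0
  obtain ⟨D, hD⟩ : ∃ D : ℕ, ∀ α ∈ f.support, (f.coeff α).natDegree < D :=
    ⟨f.support.sup (fun α => (f.coeff α).natDegree) + 1, fun α hα =>
      Nat.lt_succ_of_le (Finset.le_sup (f := fun α => (f.coeff α).natDegree) hα)⟩
  obtain ⟨T, hT⟩ : ∃ T : Finset ℕ, ∀ l, l ∈ T ↔ l ∈ Finset.range D ∧ lay d f l ≠ 0 :=
    ⟨(Finset.range D).filter (fun l => lay d f l ≠ 0), fun l => Finset.mem_filter⟩
  have hTne : T.Nonempty := by
    obtain ⟨α, hα⟩ := MvPolynomial.support_nonempty.mpr hf0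
    refine ⟨(f.coeff α).natDegree, (hT _).mpr ⟨Finset.mem_range.mpr (hD α hα), ?_⟩⟩
    intro h
    have h1 := lay_coeff d f (f.coeff α).natDegree hα
    rw [h, MvPolynomial.coeff_zero] at h1
    exact Polynomial.leadingCoeff_ne_zero.mpr (MvPolynomial.mem_support_iff.mp hα) h1.symm
  have hfac : ∀ l : ℕ, ∃ (j : ℕ) (h : MvPolynomial (Fin 3) K), lay d f l ≠ 0 →
      3 * j ≤ d ∧ h.IsHomogeneous (d - 3 * j) ∧ lay d f l = G ^ j * h ∧ ev Θ h ≠ 0 := by
    intro l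
    by_cases h0 : lay d f l = 0
    · exact ⟨0, 0, fun h => absurd h0 h⟩
    · obtain ⟨j, h, H⟩ := factor_cubic (ev Θ) hind hG hG0 hGE (lay_hom hf l) h0
      exact ⟨j, h, fun _ => H⟩
  choose j h hjh using hfac
  obtain ⟨l₁, hl₁, hμ⟩ := T.exists_min_image (fun l => l + j l) hTne
  obtain ⟨μ, hμdef⟩ : ∃ μ, μ = l₁ + j l₁ := ⟨_, rfl⟩
  simp only [← hμdef] at hμ
  obtain ⟨T', hT'⟩ : ∃ T' : Finset ℕ, T' = T.filter (fun l => l + j l = μ) := ⟨_, rfl⟩
  have hT'ne : T'.Nonempty := ⟨l₁, hT' ▸ Finset.mem_filter.mpr ⟨hl₁, hμdef.symm⟩⟩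
  have hT'T : ∀ l ∈ T', lay d f l ≠ 0 ∧ l + j l = μ := fun l hl => by
    rw [hT'] at hl
    exact ⟨((hT l).mp (Finset.mem_filter.mp hl).1).2, (Finset.mem_filter.mp hl).2⟩
  obtain ⟨l₀, hl₀, hγ⟩ := T'.exists_min_image (fun l => (ev Θ (h l)).order) hT'ne
  obtain ⟨γ₀, hγ₀⟩ : ∃ γ₀, γ₀ = (ev Θ (h l₀)).order := ⟨_, rfl⟩
  simp only [← hγ₀] at hγ
  have hsub : ∀ l ∈ T', μ - j l = l := fun l hl => by have := (hT'T l hl).2; omega
  have hinj : Set.InjOn j (T' : Set ℕ) := fun l hl l' hl' hll => by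
    have h1 := (hT'T l hl).2
    have h2 := (hT'T l' hl').2
    omega
  have main := toric m hq hp hA x hx (T'.image j) (fun i => (ev Θ (h (μ - i))).coeff γ₀) ?_ ?_
    (j l₀) (Finset.mem_image_of_mem _ hl₀)
  · beta_reduce at main
    rw [hsub l₀ hl₀, hγ₀] at main
    exact HahnSeries.coeff_order_eq_zero.not.mpr (hjh l₀ (hT'T l₀ hl₀).1).2.2.2 main
  · intro i hi N hN
    obtain ⟨l, hl, rfl⟩ := Finset.mem_image.mp hi
    beta_reduce at hN
    rw [hsub l hl] at hN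
    obtain ⟨h3, hh, -, -⟩ := hjh l (hT'T l hl).1
    have := (Th_ev hΘ hh).supp (γ₀ := γ₀)
      (fun γ hγ' => HahnSeries.coeff_eq_zero_of_lt_order (hγ'.trans_le (hγ l hl))) hN
    rwa [Nat.cast_sub h3, Nat.cast_mul, Nat.cast_ofNat] at this
  · intro i k
    have h1 := cone_dvd jj red sL exists_red (fun a : Fin 3 => AA (x i) (Θ ((a : ℕ) : ℤ))) hν
      (ui i) (li i) (hli i) G (by rw [eval₂_AA, hGE, map_zero]) (by rw [eval₂_AA]; exact hui i)
      f hf (hv i) D hD T (fun l hl => ((hT l).mp hl).1)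
      (fun l hl hl' => by_contra fun h0 => hl' ((hT l).mpr ⟨hl, h0⟩)) j h
      (fun l hl => (hjh l ((hT l).mp hl).2).2.2.1) μ hμ k
    rw [← hT'] at h1
    obtain ⟨z, hz⟩ := h1
    have h4 := congrArg (fun w : LS => w.coeff γ₀) hz
    beta_reduce at h4
    refine ⟨z.coeff γ₀, ?_⟩
    rw [sL_pow_mul_coeff] at h4
    rw [← h4, Finset.sum_image hinj, map_sum, Finset.mul_sum, HahnSeries.coeff_sum]
    refine Finset.sum_congr rfl fun l hl => ?_
    have h5 : ((j l).choose k : LS) * sL ^ k * AA (x i) (ev Θ (h l)) =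
        sL ^ k * (((j l).choose k) • AA (x i) (ev Θ (h l))) := by
      rw [nsmul_eq_mul, mul_comm _ (sL ^ k), mul_assoc]
    rw [eval₂_AA, h5, sL_pow_mul_coeff, hsub l hl, map_mul, map_natCast, HahnSeries.coeff_nsmul]
    simp [AA]

end Crest.Agent.R259
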