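import Crest.Agent.R259.Arr

/-! Row 259: existence of the basic theta series, the functional equation, the support bound. -/

set_option autoImplicit false

noncomputable section

namespace Crest.Agent.R259

private theorem e_bd (p : ℤ) {q : ℤ} (hq : 0 < q) (N : ℤ) :
    N ^ 2 ≤ 2 * e p q N + (2 * p - 3 * q) ^ 2 := by
  unfold e
  nlinarith [sq_nonneg (N + (2 * p - 3 * q)), mul_nonneg (sub_nonneg.2 (Int.add_one_le_iff.2 hq)) (sq_nonneg N)]

theorem exists_theta (p q : ℤ) (hq : 0 < q) : ∃ Θ : ℤ → L, IsTheta p q Θ := by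
  have hfin : ∀ i γ : ℤ, (Function.support fun N : ℤ =>
      if (3 : ℤ) ∣ N - i ∧ γ = e p q N then (1 : ℂ) else 0).Finite := fun i γ => by
    refine (Set.finite_Icc (-(2 * γ + (2 * p - 3 * q) ^ 2)) (2 * γ + (2 * p - 3 * q) ^ 2)).subset
      fun N hN => ?_
    have h1 : γ = e p q N := by
      by_contra h1
      simp [h1] at hN
    have h2 := e_bd p hq N
    rw [← h1] at h2
    exact abs_le.1 ((Int.le_self_sq |N|).trans ((sq_abs N).trans_le h2))
  have hbd : ∀ i : ℤ, BddBelow (Function.support fun γ : ℤ =>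
      (AddMonoidAlgebra.ofCoeff (Finsupp.ofSupportFinite _ (hfin i γ)) : R)) := fun i => by
    refine ⟨-(2 * p - 3 * q) ^ 2, fun γ hγ => ?_⟩
    by_contra hlt
    refine hγ (AddMonoidAlgebra.ofCoeff_eq_zero.2 (Finsupp.ext fun N => ?_))
    rw [Finsupp.ofSupportFinite_coe]
    refine if_neg fun h1 => hlt ?_
    have h2 := e_bd p hq N
    rw [← h1.2] at h2
    nlinarith [sq_nonneg N, sq_nonneg (2 * p - 3 * q)]
  exact ⟨fun i => HahnSeries.ofSuppBddBelow _ (hbd i), fun i γ N => rfl⟩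

theorem Th.mul {p q : ℤ} {n n' : ℕ} {θ θ' : L} (h : Th p q n θ) (h' : Th p q n' θ') :
    Th p q (n + n') (θ * θ') := by
  intro γ N
  let E : ℤ × ℤ ≃ ℤ × ℤ :=
    { toFun := fun u => (u.1 + 6 * q * u.2 + 6 * p * n, u.2 + 3 * n)
      invFun := fun u => (u.1 - 6 * q * (u.2 - 3 * n) - 6 * p * n, u.2 - 3 * n)
      left_inv := fun u => by ext <;> dsimp only <;> ring
      right_inv := fun u => by ext <;> dsimp only <;> ring }
  rw [co_mul, co_mul, ← finsum_comp_equiv E]
  refine finsum_congr fun u => ?_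
  refine congrArg₂ (· * ·) (h u.1 u.2) ((congrArg (co θ') ?_).trans (h' (γ - u.1) (N - u.2)))
  ext <;> simp [E] <;> ring

private theorem Th_ι (p q : ℤ) (c : K) : Th p q 0 (ι c) := by
  intro γ N
  rw [co_ι, co_ι]
  by_cases hN : N = 0 <;> simp [hN]

private theorem Th.pow {p q : ℤ} {θ : L} (h : Th p q 1 θ) (k : ℕ) : Th p q k (θ ^ k) := by
  induction k with
  | zero => simpa using Th_ι p q 1
  | succ k ih =>
    rw [pow_succ]
    exact ih.mul h

private theorem Th_theta {p q : ℤ} {Θ : ℤ → L} (hΘ : IsTheta p q Θ) (i : ℤ) : Th p q 1 (Θ i) := by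
  intro γ N
  rw [hΘ, hΘ]
  refine if_congr (and_congr (by omega) ?_) rfl rfl
  unfold e
  push_cast
  constructor <;> intro h <;> linarith

theorem Th_ev {p q : ℤ} {Θ : ℤ → L} (hΘ : IsTheta p q Θ) {n : ℕ} {h : MvPolynomial (Fin 3) K}
    (hh : h.IsHomogeneous n) : Th p q n (ev Θ h) := by
  induction hh using MvPolynomial.IsWeightedHomogeneous.induction_on with
  | zero =>
    intro γ N
    simp
  | add f g _ _ hf hg =>
    intro γ N
    rw [map_add, co_add, co_add, hf, hg]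
  | monomial d c hd =>
    have h1 : n = 0 + (d 0 + d 1 + d 2) := by
      rw [← hd, Finsupp.weight_apply, Finsupp.sum_fintype _ _ (by simp)]
      simp [Fin.sum_univ_three]
    rw [ev, MvPolynomial.eval₂Hom_monomial, Finsupp.prod_fintype _ _ (by simp), Fin.prod_univ_three, h1]
    exact (Th_ι p q c).mul ((((Th_theta hΘ _).pow _).mul ((Th_theta hΘ _).pow _)).mul
      ((Th_theta hΘ _).pow _))

/-- the lowest layer of a theta series of degree `3 n` has `x`-support in
`[-(p/q) n, (3 - p/q) n]` -/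
theorem Th.supp {p q : ℤ} {n : ℕ} {θ : L} (h : Th p q n θ) {γ₀ : ℤ}
    (hγ : ∀ γ < γ₀, θ.coeff γ = 0) {N : ℤ} (hN : (θ.coeff γ₀).coeff N ≠ 0) :
    0 ≤ q * N + p * n ∧ q * N + (p - 3 * q) * n ≤ 0 := by
  have key : ∀ γ M : ℤ, co θ (γ, M) = co θ (γ₀, N) → γ₀ ≤ γ := fun γ M hM => by
    by_contra hlt
    refine hN (hM.symm.trans ?_)
    simp [co, hγ γ (not_le.1 hlt)]
  have h1 := key _ _ (h γ₀ N)
  have h2 := key _ _ ((h (γ₀ - 6 * q * (N - 3 * n) - 6 * p * n) (N - 3 * n)).symm.trans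
    (congrArg (co θ) (by ext <;> dsimp only <;> ring)))
  constructor <;> linarith

end Crest.Agent.R259
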